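import Vale.Agent.P006.H357.Base
import Mathlib.RingTheory.UniqueFactorizationDomain.Basic

/-!
P006, block HB: primary elements of `O`, induction over prime factors, divisors, Moebius sums.
-/

namespace Vale.Agent.P006.HB

open Vale.Agent.P006 Finset

/-! ### units and primary representatives -/

theorem N_eq_one_cases {z : O} (h : N z = 1) :
    z = 1 ∨ z = -1 ∨ z = om ∨ z = -om ∨ z = om * om ∨ z = -(om * om) := by
  have h1 : 3 * (z.im * z.im) ≤ 4 := by have := im_sq_le z; rw [h] at this; simpa using this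
  have h2 : 3 * (z.re * z.re) ≤ 4 := by have := re_sq_le z; rw [h] at this; simpa using this
  have h3 : z.re * z.re - z.re * z.im + z.im * z.im = 1 := by
    rw [← N_cast_int', h]; rfl
  have a1 : -1 ≤ z.re := by nlinarith
  have a2 : z.re ≤ 1 := by nlinarith
  have b1 : -1 ≤ z.im := by nlinarith
  have b2 : z.im ≤ 1 := by nlinarith
  obtain ⟨a, b⟩ := z
  simp only at *
  interval_cases a <;> interval_cases b <;> first | (exfalso; omega) | (revert h; decide)

theorem three_dvd_iff (z : O) : (3 : O) ∣ z ↔ (3 : ℤ) ∣ z.re ∧ (3 : ℤ) ∣ z.im := by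
  constructor
  · rintro ⟨c, rfl⟩
    have h3 : (3 : O) = ⟨3, 0⟩ := by decide
    rw [h3]
    constructor
    · simp
    · simp
  · rintro ⟨⟨a, ha⟩, ⟨b, hb⟩⟩
    refine ⟨⟨a, b⟩, ?_⟩
    have h3 : (3 : O) = ⟨3, 0⟩ := by decide
    rw [h3]
    ext <;> simp [ha, hb]

theorem lam_dvd_iff (z : O) : lam ∣ z ↔ (3 : ℤ) ∣ z.re + z.im := by
  constructor
  · rintro ⟨c, rfl⟩
    simp only [lam, QuadraticAlgebra.re_mul, QuadraticAlgebra.im_mul]
    exact ⟨c.im, by ring⟩
  · rintro ⟨t, ht⟩
    refine ⟨⟨z.re - t, t⟩, ?_⟩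
    apply QuadraticAlgebra.ext
    · simp only [lam, QuadraticAlgebra.re_mul]; ring
    · simp only [lam, QuadraticAlgebra.im_mul]; linarith

theorem exists_unit_prim {z : O} (h : ¬ lam ∣ z) : ∃ u : O, IsUnit u ∧ Prim (u * z) := by
  rw [lam_dvd_iff] at h
  have key : ∀ u : O, N u = 1 → (3 : O) ∣ u * z - 1 → ∃ u : O, IsUnit u ∧ Prim (u * z) :=
    fun u hu h => ⟨u, isUnit_iff_N.2 hu, h⟩
  have hre : z.re % 3 = 0 ∨ z.re % 3 = 1 ∨ z.re % 3 = 2 := by omega
  have him : z.im % 3 = 0 ∨ z.im % 3 = 1 ∨ z.im % 3 = 2 := by omega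
  rcases hre with hr | hr | hr <;> rcases him with hi | hi | hi
  · omega
  · refine key (om * om) (by decide) ?_
    rw [three_dvd_iff]
    simp [om, QuadraticAlgebra.re_one, QuadraticAlgebra.im_one]; constructor <;> omega
  · refine key (-(om * om)) (by decide) ?_
    rw [three_dvd_iff]
    simp [om, QuadraticAlgebra.re_one, QuadraticAlgebra.im_one]; constructor <;> omega
  · refine key 1 (by decide) ?_
    rw [three_dvd_iff]
    simp [QuadraticAlgebra.re_one, QuadraticAlgebra.im_one]; constructor <;> omega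
  · refine key (-om) (by decide) ?_
    rw [three_dvd_iff]
    simp [om, QuadraticAlgebra.re_one, QuadraticAlgebra.im_one]; constructor <;> omega
  · omega
  · refine key (-1) (by decide) ?_
    rw [three_dvd_iff]
    simp [QuadraticAlgebra.re_one, QuadraticAlgebra.im_one]; constructor <;> omega
  · omega
  · refine key om (by decide) ?_
    rw [three_dvd_iff]
    simp [om, QuadraticAlgebra.re_one, QuadraticAlgebra.im_one]; constructor <;> omega

theorem Prim.not_lam_dvd {k : O} (hk : Prim k) : ¬ lam ∣ k := by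
  unfold Prim at hk
  rw [three_dvd_iff] at hk
  rw [lam_dvd_iff]
  simp [QuadraticAlgebra.re_one, QuadraticAlgebra.im_one] at hk
  omega

theorem Prim.eq_one_of_isUnit {k : O} (hk : Prim k) (hu : IsUnit k) : k = 1 := by
  have h := N_eq_one_cases (isUnit_iff_N.1 hu)
  unfold Prim at hk
  rw [three_dvd_iff] at hk
  rcases h with rfl | rfl | rfl | rfl | rfl | rfl
  · rfl
  all_goals (exfalso; revert hk; decide)

/-- every divisor of a primary element has a primary associate -/
theorem Prim.exists_prim_of_dvd {k d : O} (hk : Prim k) (hd : d ∣ k) :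
    ∃ d' : O, Prim d' ∧ Associated d d' := by
  have h : ¬ lam ∣ d := fun h => hk.not_lam_dvd (h.trans hd)
  obtain ⟨u, hu, hp⟩ := exists_unit_prim h
  refine ⟨u * d, hp, ?_⟩
  obtain ⟨v, rfl⟩ := hu
  exact ⟨v, mul_comm _ _⟩

theorem Prim.eq_of_associated {k l : O} (hk : Prim k) (hl : Prim l) (h : Associated k l) :
    k = l := by
  obtain ⟨u, rfl⟩ := h
  have : Prim (u : O) := hk.of_mul_left hl
  rw [this.eq_one_of_isUnit u.isUnit, mul_one]

/-- induction over primary prime factors -/
theorem prim_induction {P : O → Prop} (h1 : P 1)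
    (hmul : ∀ p k : O, Prim p → Prime p → Prim k → P k → P (p * k)) :
    ∀ k : O, Prim k → P k := by
  suffices H : ∀ n : ℕ, ∀ k : O, N k = n → Prim k → P k from fun k hk => H _ k rfl hk
  intro n
  induction n using Nat.strong_induction_on with
  | _ n ih =>
    intro k hn hk
    by_cases hu : IsUnit k
    · rw [hk.eq_one_of_isUnit hu]; exact h1
    · obtain ⟨q, hq, hqk⟩ := WfDvdMonoid.exists_irreducible_factor hu hk.ne_zero
      obtain ⟨p, hp, hqp⟩ := hk.exists_prim_of_dvd hqk
      have hpk : p ∣ k := (hqp.dvd_iff_dvd_left).1 hqk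
      obtain ⟨l, rfl⟩ := hpk
      have hpi : Irreducible p := (hqp.irreducible_iff).1 hq
      have hl : Prim l := hp.of_mul_left hk
      refine hmul p l hp hpi.prime hl (ih (N l) ?_ l rfl hl)
      rw [← hn, N_mul]
      have hNp : 1 < N p := by
        have h0 := hp.N_pos
        have h1 : N p ≠ 1 := fun h => hpi.not_isUnit (isUnit_iff_N.2 h)
        omega
      have := hl.N_pos
      nlinarith

/-- induction over squarefree primary elements -/
theorem sf_induction {P : O → Prop} (h1 : P 1)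
    (hmul : ∀ p k : O, Prim p → Prime p → Prim k → Squarefree k → IsCoprime p k →
      P k → P (p * k)) :
    ∀ k : O, Prim k → Squarefree k → P k := by
  refine prim_induction (P := fun k => Squarefree k → P k) (fun _ => h1) ?_
  intro p k hp hpp hk ih hsq
  have hk' : Squarefree k := hsq.squarefree_of_dvd (Dvd.intro_left p rfl)
  refine hmul p k hp hpp hk hk' ?_ (ih hk')
  have : ¬ p ∣ k := by
    intro h
    have h2 : p * p ∣ p * k := mul_dvd_mul_left p h
    exact hpp.not_isUnit (hsq p h2)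
  exact (hpp.irreducible.coprime_iff_not_dvd).2 this

/-! ### primary divisors -/

open Classical in
/-- primary divisors of `k` -/
noncomputable def D (k : O) : Finset O := (Nle (N k : ℝ)).filter (fun d => Prim d ∧ d ∣ k)

theorem mem_D {k d : O} (hk : k ≠ 0) : d ∈ D k ↔ Prim d ∧ d ∣ k := by
  simp only [D, mem_filter, mem_Nle, and_iff_right_iff_imp, and_imp]
  rintro - hd
  have h1 : N d ∣ N k := N_dvd_N hd
  exact_mod_cast Nat.le_of_dvd (Vale.Agent.P006.N_pos hk) h1

theorem D_one : D 1 = {1} := by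
  ext d
  rw [mem_D one_ne_zero, mem_singleton]
  constructor
  · rintro ⟨h1, h2⟩
    exact h1.eq_one_of_isUnit (isUnit_of_dvd_one h2)
  · rintro rfl
    exact ⟨prim_one, dvd_rfl⟩

theorem sum_D_mul {M : Type*} [AddCommMonoid M] {p k : O} (hp : Prim p) (hpp : Prime p)
    (hk : Prim k) (hc : IsCoprime p k) (f : O → M) :
    ∑ d ∈ D (p * k), f d = ∑ d ∈ D k, f d + ∑ d ∈ D k, f (p * d) := by
  classical
  have hinj : ∀ x ∈ D k, ∀ y ∈ D k, p * x = p * y → x = y :=
    fun x _ y _ h => mul_left_cancel₀ hp.ne_zero h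
  rw [← sum_image (s := D k) (g := fun d => p * d) (f := f) hinj]
  rw [← sum_union]
  · apply sum_congr _ fun _ _ => rfl
    ext d
    rw [mem_union, mem_image, mem_D (hp.mul hk).ne_zero, mem_D hk.ne_zero]
    constructor
    · rintro ⟨h1, h2⟩
      by_cases hpd : p ∣ d
      · right
        obtain ⟨e, rfl⟩ := hpd
        refine ⟨e, ?_, rfl⟩
        rw [mem_D hk.ne_zero]
        exact ⟨hp.of_mul_left h1, (mul_dvd_mul_iff_left hp.ne_zero).1 h2⟩
      · left
        have hcop : IsCoprime p d := (hpp.irreducible.coprime_iff_not_dvd).2 hpd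
        exact ⟨h1, hcop.symm.dvd_of_dvd_mul_left h2⟩
    · rintro (⟨h1, h2⟩ | ⟨e, he, rfl⟩)
      · exact ⟨h1, h2.mul_left p⟩
      · rw [mem_D hk.ne_zero] at he
        exact ⟨hp.mul he.1, mul_dvd_mul_left p he.2⟩
  · rw [disjoint_left]
    intro d hd hd'
    rw [mem_D hk.ne_zero] at hd
    rw [mem_image] at hd'
    obtain ⟨e, -, rfl⟩ := hd'
    have h1 : p ∣ k := (Dvd.intro e rfl).trans hd.2
    exact hpp.not_isUnit (hc.isUnit_of_dvd' dvd_rfl h1)

theorem card_D_mul {p k : O} (hp : Prim p) (hpp : Prime p)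
    (hk : Prim k) (hc : IsCoprime p k) : (D (p * k)).card = 2 * (D k).card := by
  rw [card_eq_sum_ones, sum_D_mul hp hpp hk hc, ← card_eq_sum_ones]; ring

/-- the Moebius sign `(-1)^{number of prime factors}` -/
noncomputable def mob (d : O) : ℂ :=
  (-1) ^ (UniqueFactorizationMonoid.factors d).card

theorem mob_one : mob 1 = 1 := by simp [mob]

theorem norm_mob (d : O) : ‖mob d‖ = 1 := by simp [mob]

theorem mob_mul {p d : O} (hp : Prime p) (hd : d ≠ 0) : mob (p * d) = - mob d := by
  have h1 := UniqueFactorizationMonoid.factors_mul hp.ne_zero hd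
  have h2 := Multiset.card_eq_card_of_rel h1
  have h3 : (UniqueFactorizationMonoid.factors p).card = 1 :=
    UniqueFactorizationMonoid.card_factors_of_irreducible hp.irreducible
  rw [mob, h2, Multiset.card_add, h3, pow_add, mob]; ring

open Classical in
/-- Moebius detection of coprimality -/
theorem sum_mob (δ : O) (h1 : Prim δ) (h2 : Squarefree δ) (n : O) :
    ∑ d ∈ D δ, (if d ∣ n then mob d else 0) = if IsCoprime δ n then 1 else 0 := by
  refine sf_induction (P := fun δ => ∑ d ∈ D δ, (if d ∣ n then mob d else 0)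
    = if IsCoprime δ n then 1 else 0) ?_ ?_ δ h1 h2
  · rw [D_one]; simp [mob_one, isCoprime_one_left]
  · intro p k hp hpp hk hsk hc ih
    rw [sum_D_mul hp hpp hk hc]
    have h3 : ∀ d ∈ D k, (if p * d ∣ n then mob (p * d) else 0)
        = - (if p ∣ n then (if d ∣ n then mob d else 0) else 0) := by
      intro d hd
      rw [mem_D hk.ne_zero] at hd
      have hcd : IsCoprime p d := hc.of_isCoprime_of_dvd_right hd.2
      have h4 : p * d ∣ n ↔ p ∣ n ∧ d ∣ n :=
        ⟨fun h => ⟨(Dvd.intro _ rfl).trans h, (Dvd.intro_left _ rfl).trans h⟩,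
          fun h => hcd.mul_dvd h.1 h.2⟩
      rw [mob_mul hpp hd.1.ne_zero]
      by_cases ha : p ∣ n <;> by_cases hb : d ∣ n <;> simp [h4, ha, hb]
    rw [sum_congr rfl h3, sum_neg_distrib, IsCoprime.mul_left_iff]
    by_cases ha : p ∣ n
    · have : ¬ IsCoprime p n := fun h => hpp.not_isUnit (h.isUnit_of_dvd' dvd_rfl ha)
      simp [ha, this]
    · have : IsCoprime p n := (hpp.irreducible.coprime_iff_not_dvd).2 ha
      simp [ha, this, ih]

/-! ### divisor bound -/

/-- `τ(k) ≪ N(k)^ε` for squarefree primary `k` -/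
theorem card_D_le {ε : ℝ} (hε : 0 < ε) :
    ∃ C : ℝ, 1 ≤ C ∧ ∀ k : O, Prim k → Squarefree k → ((D k).card : ℝ) ≤ C * (N k : ℝ) ^ ε := by
  classical
  -- small primes: norm less than `2^{1/ε}`
  set P : ℝ := (2 : ℝ) ^ (1 / ε) with hP
  set S : Finset O := Nle P with hS
  refine ⟨2 ^ S.card, one_le_pow₀ (by norm_num), ?_⟩
  suffices H : ∀ k : O, Prim k → Squarefree k →
      ((D k).card : ℝ) ≤ 2 ^ (S.filter (fun p => p ∣ k ∧ ¬ IsUnit p)).card * (N k : ℝ) ^ ε by
    intro k hk hk'
    refine (H k hk hk').trans ?_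
    gcongr
    · norm_num
    · exact filter_subset _ _
  refine sf_induction ?_ ?_
  · rw [D_one]
    simp only [card_singleton, Nat.cast_one, N_one, Real.one_rpow, mul_one]
    exact one_le_pow₀ (by norm_num)
  · intro p k hp hpp hk hsk hc ih
    rw [card_D_mul hp hpp hk hc, N_mul]
    push_cast
    rw [Real.mul_rpow (by positivity) (by positivity)]
    have hNk : (0 : ℝ) ≤ (N k : ℝ) ^ ε := by positivity
    have hsub : S.filter (fun q => q ∣ k ∧ ¬ IsUnit q) ⊆
        S.filter (fun q => q ∣ p * k ∧ ¬ IsUnit q) := by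
      intro q hq
      rw [mem_filter] at *
      exact ⟨hq.1, hq.2.1.mul_left p, hq.2.2⟩
    by_cases hpS : p ∈ S
    · have hmem : p ∈ S.filter (fun q => q ∣ p * k ∧ ¬ IsUnit q) := by
        rw [mem_filter]; exact ⟨hpS, Dvd.intro _ rfl, hpp.not_isUnit⟩
      have hnmem : p ∉ S.filter (fun q => q ∣ k ∧ ¬ IsUnit q) := by
        rw [mem_filter]
        rintro ⟨-, h, -⟩
        exact hpp.not_isUnit (hc.isUnit_of_dvd' dvd_rfl h)
      have hcard : (S.filter (fun q => q ∣ k ∧ ¬ IsUnit q)).card + 1 ≤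
          (S.filter (fun q => q ∣ p * k ∧ ¬ IsUnit q)).card := by
        rw [← card_insert_of_notMem hnmem]
        apply card_le_card
        intro q hq
        rw [mem_insert] at hq
        rcases hq with rfl | hq
        · exact hmem
        · exact hsub hq
      have hNp : (1 : ℝ) ≤ (N p : ℝ) ^ ε :=
        Real.one_le_rpow (by exact_mod_cast hp.N_pos) hε.le
      calc 2 * ((D k).card : ℝ)
          ≤ 2 * (2 ^ (S.filter (fun q => q ∣ k ∧ ¬ IsUnit q)).card * (N k : ℝ) ^ ε) := by
            gcongr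
        _ = 2 ^ ((S.filter (fun q => q ∣ k ∧ ¬ IsUnit q)).card + 1) * (1 * (N k : ℝ) ^ ε) := by
            rw [pow_succ]; ring
        _ ≤ 2 ^ (S.filter (fun q => q ∣ p * k ∧ ¬ IsUnit q)).card *
              ((N p : ℝ) ^ ε * (N k : ℝ) ^ ε) := by
            gcongr
            norm_num
    · have hNp : (2 : ℝ) ≤ (N p : ℝ) ^ ε := by
        rw [hS, mem_Nle, not_le] at hpS
        calc (2 : ℝ) = P ^ ε := by
              rw [hP, ← Real.rpow_mul (by norm_num), one_div, inv_mul_cancel₀ hε.ne',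
                Real.rpow_one]
          _ ≤ (N p : ℝ) ^ ε := by
              apply Real.rpow_le_rpow (by positivity) hpS.le hε.le
      calc 2 * ((D k).card : ℝ)
          ≤ 2 * (2 ^ (S.filter (fun q => q ∣ k ∧ ¬ IsUnit q)).card * (N k : ℝ) ^ ε) := by
            gcongr
        _ = 2 ^ (S.filter (fun q => q ∣ k ∧ ¬ IsUnit q)).card * (2 * (N k : ℝ) ^ ε) := by
            ring
        _ ≤ _ := by
            gcongr
            norm_num

/-! ### the primary gcd of two primary elements -/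

/-- existence of the primary gcd -/
theorem exists_pgcd {k l : O} (hk : Prim k) (hl : Prim l) :
    ∃ δ a b : O, Prim δ ∧ Prim a ∧ Prim b ∧ k = δ * a ∧ l = δ * b ∧ IsCoprime a b := by
  classical
  have hg0 : EuclideanDomain.gcd k l ≠ 0 := by
    intro h
    exact hk.ne_zero (EuclideanDomain.gcd_eq_zero_iff.1 h).1
  obtain ⟨δ, hδ, hass⟩ := hk.exists_prim_of_dvd (EuclideanDomain.gcd_dvd_left k l)
  have h1 : δ ∣ k := (hass.dvd_iff_dvd_left).1 (EuclideanDomain.gcd_dvd_left k l)
  have h2 : δ ∣ l := (hass.dvd_iff_dvd_left).1 (EuclideanDomain.gcd_dvd_right k l)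
  obtain ⟨a, rfl⟩ := h1
  obtain ⟨b, rfl⟩ := h2
  refine ⟨δ, a, b, hδ, hδ.of_mul_left hk, hδ.of_mul_left hl, rfl, rfl, ?_⟩
  have hbez := EuclideanDomain.gcd_eq_gcd_ab (δ * a) (δ * b)
  obtain ⟨u, hu⟩ := hass
  refine ⟨EuclideanDomain.gcdA (δ * a) (δ * b) * u, EuclideanDomain.gcdB (δ * a) (δ * b) * u, ?_⟩
  apply mul_left_cancel₀ hδ.ne_zero
  rw [mul_one]
  calc δ * (EuclideanDomain.gcdA (δ * a) (δ * b) * u * a
        + EuclideanDomain.gcdB (δ * a) (δ * b) * u * b)
      = (δ * a * EuclideanDomain.gcdA (δ * a) (δ * b)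
        + δ * b * EuclideanDomain.gcdB (δ * a) (δ * b)) * u := by ring
    _ = δ := by rw [← hbez, hu]

theorem pgcd_unique {δ a b δ' a' b' : O} (hδ : Prim δ) (hδ' : Prim δ')
    (h1 : δ * a = δ' * a') (h2 : δ * b = δ' * b') (hc : IsCoprime a b) (hc' : IsCoprime a' b') :
    δ = δ' := by
  have key : ∀ {δ a b δ' a' b' : O}, δ * a = δ' * a' → δ * b = δ' * b' → IsCoprime a b →
      δ' ∣ δ := by
    intro δ a b δ' a' b' h1 h2 hc
    obtain ⟨x, y, hxy⟩ := hc
    refine ⟨x * a' + y * b', ?_⟩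
    calc δ = δ * (x * a + y * b) := by rw [hxy, mul_one]
      _ = x * (δ * a) + y * (δ * b) := by ring
      _ = δ' * (x * a' + y * b') := by rw [h1, h2]; ring
  exact hδ.eq_of_associated hδ' (associated_of_dvd_dvd (key h1.symm h2.symm hc') (key h1 h2 hc))

end Vale.Agent.P006.HB
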