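import Vale.Agent.P006.CR.Basic
import Mathlib.NumberTheory.ModularForms.EisensteinSeries.Summable
import Mathlib.Algebra.QuadraticAlgebra.Defs

/-!
P006, block HB (Heath-Brown's cubic large sieve), base file:
finiteness of norm balls in `O`, convergence of `∑ N(h)^{-1-ε}`, crude counting.
-/

namespace Vale.Agent.P006.HB

open Vale.Agent.P006 Finset

/-- `k` is primary: `k ≡ 1 mod 3` -/
def Prim (k : O) : Prop := (3 : O) ∣ k - 1

theorem prim_one : Prim 1 := by simp [Prim]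

theorem Prim.mul {k l : O} (hk : Prim k) (hl : Prim l) : Prim (k * l) := by
  unfold Prim at *
  have : k * l - 1 = (k - 1) * l + (l - 1) := by ring
  rw [this]
  exact dvd_add (Dvd.dvd.mul_right hk l) hl

theorem Prim.ne_zero {k : O} (hk : Prim k) : k ≠ 0 := by
  rintro rfl
  have h1 : N (3 : O) ∣ N (0 - 1 : O) := N_dvd_N hk
  have h2 : N (3 : O) = 9 := by decide
  have h3 : N (0 - 1 : O) = 1 := by decide
  rw [h2, h3] at h1
  omega

/-- the quotient of primary elements is primary -/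
theorem Prim.of_mul_left {k l : O} (hk : Prim k) (hkl : Prim (k * l)) : Prim l := by
  unfold Prim at *
  have : l - 1 = (k * l - 1) - (k - 1) * l := by ring
  rw [this]
  exact dvd_sub hkl (Dvd.dvd.mul_right hk l)

theorem Prim.of_mul_right {k l : O} (hl : Prim l) (hkl : Prim (k * l)) : Prim k := by
  rw [mul_comm] at hkl; exact hl.of_mul_left hkl

theorem Prim.N_pos {k : O} (hk : Prim k) : 0 < N k := Vale.Agent.P006.N_pos hk.ne_zero

/-! ### coordinates and norm -/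

theorem im_sq_le (z : O) : 3 * (z.im * z.im) ≤ 4 * (N z : ℤ) := by
  rw [N_cast_int']; nlinarith [mul_self_nonneg (2 * z.re - z.im)]

theorem re_sq_le (z : O) : 3 * (z.re * z.re) ≤ 4 * (N z : ℤ) := by
  rw [N_cast_int']; nlinarith [mul_self_nonneg (2 * z.im - z.re)]

theorem finite_N_le (X : ℝ) : {z : O | (N z : ℝ) ≤ X}.Finite := by
  obtain ⟨M, hM⟩ := exists_nat_ge X
  have hsub : {z : O | (N z : ℝ) ≤ X} ⊆
      (QuadraticAlgebra.equivProd (-1 : ℤ) (-1)).symm ''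
        ((Set.Icc (-(2 * M : ℤ)) (2 * M)) ×ˢ (Set.Icc (-(2 * M : ℤ)) (2 * M))) := by
    intro z hz
    have h1 : (N z : ℤ) ≤ M := by
      have : (N z : ℝ) ≤ M := le_trans hz hM
      exact_mod_cast this
    have h2 := im_sq_le z
    have h3 := re_sq_le z
    have key : ∀ t : ℤ, 3 * (t * t) ≤ 4 * M → t ∈ Set.Icc (-(2 * M : ℤ)) (2 * M) := by
      intro t ht
      rw [Set.mem_Icc]
      constructor <;> nlinarith [mul_self_nonneg t]
    refine ⟨(z.re, z.im), ⟨key _ (by linarith), key _ (by linarith)⟩, ?_⟩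
    rfl
  exact Set.Finite.subset (((Set.finite_Icc _ _).prod (Set.finite_Icc _ _)).image _) hsub

/-- all elements of norm at most `X` -/
noncomputable def Nle (X : ℝ) : Finset O := (finite_N_le X).toFinset

@[simp] theorem mem_Nle {X : ℝ} {z : O} : z ∈ Nle X ↔ (N z : ℝ) ≤ X := by
  simp [Nle]

open Classical in
/-- nonzero elements of norm at most `X` -/
noncomputable def Hn (X : ℝ) : Finset O := (Nle X).filter (fun z => z ≠ 0)

@[simp] theorem mem_Hn {X : ℝ} {z : O} : z ∈ Hn X ↔ (N z : ℝ) ≤ X ∧ z ≠ 0 := by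
  simp [Hn]

open Classical in
/-- squarefree primary elements of norm at most `X` -/
noncomputable def SF (X : ℝ) : Finset O := (Nle X).filter (fun z => Prim z ∧ Squarefree z)

@[simp] theorem mem_SF {X : ℝ} {z : O} :
    z ∈ SF X ↔ (N z : ℝ) ≤ X ∧ Prim z ∧ Squarefree z := by
  simp [SF]

theorem SF_mono {X Y : ℝ} (h : X ≤ Y) : SF X ⊆ SF Y := by
  intro z hz
  rw [mem_SF] at *
  exact ⟨hz.1.trans h, hz.2⟩

theorem Hn_mono {X Y : ℝ} (h : X ≤ Y) : Hn X ⊆ Hn Y := by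
  intro z hz
  rw [mem_Hn] at *
  exact ⟨hz.1.trans h, hz.2⟩

/-! ### convergence of `∑ N(h)^{-s}`, `s > 1` -/

theorem sq_norm_le (z : O) : ‖(![z.re, z.im] : Fin 2 → ℤ)‖ ^ 2 ≤ 4 / 3 * (N z : ℝ) := by
  have h2 : 3 * ((z.im : ℝ) * z.im) ≤ 4 * (N z : ℝ) := by exact_mod_cast im_sq_le z
  have h3 : 3 * ((z.re : ℝ) * z.re) ≤ 4 * (N z : ℝ) := by exact_mod_cast re_sq_le z
  have h4 : ‖(![z.re, z.im] : Fin 2 → ℤ)‖ = max |(z.re : ℝ)| |(z.im : ℝ)| := by
    rw [EisensteinSeries.norm_eq_max_natAbs]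
    simp [Nat.cast_natAbs]
  rw [h4]
  rcases max_choice |(z.re : ℝ)| |(z.im : ℝ)| with h | h <;> rw [h, sq_abs] <;> nlinarith

theorem summable_N_rpow {s : ℝ} (hs : 1 < s) : Summable fun z : O => (N z : ℝ) ^ (-s) := by
  have h1 := EisensteinSeries.summable_one_div_norm_rpow (k := 2 * s) (by linarith)
  have e : O ≃ (Fin 2 → ℤ) :=
    (QuadraticAlgebra.equivProd (-1 : ℤ) (-1)).trans (finTwoArrowEquiv ℤ).symm
  have h2 : Summable fun z : O => ‖(![z.re, z.im] : Fin 2 → ℤ)‖ ^ (-(2 * s)) := by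
    have h3 := ((QuadraticAlgebra.equivProd (-1 : ℤ) (-1)).trans
      (finTwoArrowEquiv ℤ).symm).summable_iff.2 h1
    refine h3.congr fun z => ?_
    rfl
  refine Summable.of_nonneg_of_le (fun z => by positivity) (fun z => ?_)
    (h2.mul_left ((4 / 3 : ℝ) ^ s))
  rcases eq_or_ne z 0 with rfl | hz
  · have h0 : ((N (0 : O) : ℕ) : ℝ) ^ (-s) = 0 := by
      rw [N_zero, Nat.cast_zero, Real.zero_rpow (by linarith)]
    rw [h0]; positivity
  · have hN : (0 : ℝ) < N z := by exact_mod_cast Vale.Agent.P006.N_pos hz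
    set r := ‖(![z.re, z.im] : Fin 2 → ℤ)‖ with hr
    have hr2 : r ^ 2 ≤ 4 / 3 * (N z : ℝ) := sq_norm_le z
    have hrpos : 0 < r := by
      rw [hr, norm_pos_iff]
      intro h
      apply hz
      have h1 := congrFun h 0
      have h2 := congrFun h 1
      simp at h1 h2
      exact QuadraticAlgebra.ext h1 h2
    have h5 : r ^ (-(2 * s)) = (r ^ 2) ^ (-s) := by
      rw [← Real.rpow_natCast, ← Real.rpow_mul hrpos.le]; norm_num
    rw [h5]
    have h6 : (4 / 3 * (N z : ℝ)) ^ (-s) ≤ (r ^ 2) ^ (-s) :=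
      Real.rpow_le_rpow_of_nonpos (by positivity) hr2 (by linarith)
    calc (N z : ℝ) ^ (-s) = (4 / 3 : ℝ) ^ s * (4 / 3 * (N z : ℝ)) ^ (-s) := by
          rw [Real.mul_rpow (by norm_num) hN.le, ← mul_assoc, ← Real.rpow_add (by norm_num)]
          simp
      _ ≤ _ := by gcongr

/-- `∑_{0<N(h)≤X} 1/N(h) ≪ X^ε` -/
theorem sum_inv_N_le {ε : ℝ} (hε : 0 < ε) :
    ∃ C : ℝ, 0 < C ∧ ∀ X : ℝ, 0 ≤ X → ∑ h ∈ Hn X, (N h : ℝ)⁻¹ ≤ C * X ^ ε := by
  have hs := summable_N_rpow (s := 1 + ε) (by linarith)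
  refine ⟨(∑' z : O, (N z : ℝ) ^ (-(1 + ε))) + 1, ?_, fun X hX => ?_⟩
  · have : 0 ≤ ∑' z : O, (N z : ℝ) ^ (-(1 + ε)) := tsum_nonneg fun z => by positivity
    linarith
  · have h1 : ∀ h ∈ Hn X, (N h : ℝ)⁻¹ ≤ X ^ ε * (N h : ℝ) ^ (-(1 + ε)) := by
      intro h hh
      rw [mem_Hn] at hh
      have hN : (0 : ℝ) < N h := by exact_mod_cast Vale.Agent.P006.N_pos hh.2
      have h2 : (N h : ℝ)⁻¹ = (N h : ℝ) ^ ε * (N h : ℝ) ^ (-(1 + ε)) := by
        rw [← Real.rpow_add hN, ← Real.rpow_neg_one]; congr 1; ring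
      rw [h2]
      gcongr
      exact hh.1
    calc ∑ h ∈ Hn X, (N h : ℝ)⁻¹ ≤ ∑ h ∈ Hn X, X ^ ε * (N h : ℝ) ^ (-(1 + ε)) :=
          sum_le_sum h1
      _ = X ^ ε * ∑ h ∈ Hn X, (N h : ℝ) ^ (-(1 + ε)) := by rw [mul_sum]
      _ ≤ X ^ ε * (∑' z : O, (N z : ℝ) ^ (-(1 + ε))) := by
          gcongr
          exact hs.sum_le_tsum _ fun z _ => by positivity
      _ ≤ _ := by
          have : 0 ≤ X ^ ε := by positivity
          nlinarith

/-- crude counting: `#{0<N(h)≤X} ≪ X^{1+ε}` -/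
theorem card_Hn_le {ε : ℝ} (hε : 0 < ε) :
    ∃ C : ℝ, 0 < C ∧ ∀ X : ℝ, 0 ≤ X → ((Hn X).card : ℝ) ≤ C * X ^ (1 + ε) := by
  obtain ⟨C, hC, h⟩ := sum_inv_N_le hε
  refine ⟨C, hC, fun X hX => ?_⟩
  have h1 : ((Hn X).card : ℝ) ≤ ∑ h ∈ Hn X, X * (N h : ℝ)⁻¹ := by
    rw [card_eq_sum_ones, Nat.cast_sum]
    refine sum_le_sum fun h hh => ?_
    rw [mem_Hn] at hh
    have hN : (0 : ℝ) < N h := by exact_mod_cast Vale.Agent.P006.N_pos hh.2
    rw [← div_eq_mul_inv, Nat.cast_one, one_le_div hN]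
    exact hh.1
  rw [← mul_sum] at h1
  rcases hX.eq_or_lt with rfl | hX'
  · simpa using h1.trans (by simp [Real.zero_rpow (by linarith : (1 + ε) ≠ 0)])
  · calc ((Hn X).card : ℝ) ≤ X * ∑ h ∈ Hn X, (N h : ℝ)⁻¹ := h1
      _ ≤ X * (C * X ^ ε) := by gcongr; exact h X hX
      _ = C * X ^ (1 + ε) := by
        rw [Real.rpow_add hX', Real.rpow_one]; ring

theorem SF_subset_Hn (X : ℝ) : SF X ⊆ Hn X := by
  intro z hz
  rw [mem_SF] at hz
  rw [mem_Hn]
  exact ⟨hz.1, hz.2.1.ne_zero⟩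

end Vale.Agent.P006.HB
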