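import Vale.Agent.P006.H357.Main
import Vale.Agent.P006.CR.Reciprocity

/-!
P006, block HB: the cubic residue symbol satisfies the abstract interface.
-/

namespace Vale.Agent.P006.HB

open Vale.Agent.P006 Finset

theorem prim_iff (k : O) : Prim k ↔ Primary k := Iff.rfl

/-- the cubic symbol `χ k n = (n/k)_3` -/
noncomputable def symC (k n : O) : ℂ := toC (sym n k)

theorem csym_symC : CSym symC where
  mul_right k m n _ := by simp [symC, sym_mul_left]
  mul_left k l n hk hl := by
    simp only [symC]
    rw [sym_mul_right n (Prim.ne_zero hk) (Prim.ne_zero hl), map_mul]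
  one_left n := by
    simp only [symC]
    rw [sym_unit n isUnit_one, map_one]
  cube_eq_one k n _ h := by
    simp only [symC]
    rw [← map_pow, sym_cube h.symm, map_one]
  eq_zero k n _ h := by
    simp only [symC]
    rw [sym_eq_zero.2 (fun h' => h h'.symm), map_zero]
  recip k l hk hl := by
    simp only [symC]
    rw [recip (a := l) (b := k) hl hk]

end Vale.Agent.P006.HB
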