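import Vale.Agent.P006.H357.Defs

/-!
P006, block HB: every nonzero `h` is `u λ^a h1 h2² h4³` with `u` a unit, `a ≤ 2`, `h1,h2`
squarefree primary coprime; covering inequality for sums over `h`.
-/

namespace Vale.Agent.P006.HB

open Vale.Agent.P006 Finset

theorem prim_decomp (m : O) (hm : Prim m) :
    ∃ h1 h2 h3 : O, Prim h1 ∧ Squarefree h1 ∧ Prim h2 ∧ Squarefree h2 ∧ IsCoprime h1 h2 ∧
      Prim h3 ∧ m = h1 * h2 ^ 2 * h3 ^ 3 := by
  refine prim_induction (P := fun m => ∃ h1 h2 h3 : O, Prim h1 ∧ Squarefree h1 ∧ Prim h2 ∧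
      Squarefree h2 ∧ IsCoprime h1 h2 ∧ Prim h3 ∧ m = h1 * h2 ^ 2 * h3 ^ 3) ?_ ?_ m hm
  · exact ⟨1, 1, 1, prim_one, squarefree_one, prim_one, squarefree_one, isCoprime_one_left,
      prim_one, by ring⟩
  · rintro p k hp hpp hk ⟨h1, h2, h3, a1, b1, a2, b2, hc, a3, rfl⟩
    by_cases hd1 : p ∣ h1
    · obtain ⟨g, rfl⟩ := hd1
      have hcp : IsCoprime p h2 := hc.of_isCoprime_of_dvd_left (Dvd.intro _ rfl)
      have hcg : IsCoprime g h2 := hc.of_isCoprime_of_dvd_left (Dvd.intro_left _ rfl)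
      have hpg : IsCoprime g p := by
        have : ¬ p ∣ g := fun h => hpp.not_isUnit (b1 p (mul_dvd_mul_left p h))
        exact ((hpp.irreducible.coprime_iff_not_dvd).2 this).symm
      refine ⟨g, p * h2, h3, hp.of_mul_left a1, b1.squarefree_of_dvd (Dvd.intro_left _ rfl),
        hp.mul a2, ?_, hpg.mul_right hcg, a3, by ring⟩
      exact (squarefree_mul_iff).2 ⟨hcp.isRelPrime, hpp.squarefree, b2⟩
    · by_cases hd2 : p ∣ h2
      · obtain ⟨g, rfl⟩ := hd2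
        refine ⟨h1, g, p * h3, a1, b1, hp.of_mul_left a2,
          b2.squarefree_of_dvd (Dvd.intro_left _ rfl),
          hc.of_isCoprime_of_dvd_right (Dvd.intro_left _ rfl), hp.mul a3, by ring⟩
      · have hc1 : IsCoprime p h1 := (hpp.irreducible.coprime_iff_not_dvd).2 hd1
        have hc2 : IsCoprime p h2 := (hpp.irreducible.coprime_iff_not_dvd).2 hd2
        refine ⟨p * h1, h2, h3, hp.mul a1, ?_, a2, b2, hc2.mul_left hc, a3, by ring⟩
        exact (squarefree_mul_iff).2 ⟨hc1.isRelPrime, hpp.squarefree, b1⟩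

theorem lam_ne_zero : lam ≠ 0 := by decide

theorem exists_lam_pow (h : O) (hh : h ≠ 0) :
    ∃ (u : O) (j : ℕ) (m : O), IsUnit u ∧ Prim m ∧ h = u * lam ^ j * m := by
  suffices H : ∀ n : ℕ, ∀ h : O, N h = n → h ≠ 0 →
      ∃ (u : O) (j : ℕ) (m : O), IsUnit u ∧ Prim m ∧ h = u * lam ^ j * m from H _ h rfl hh
  intro n
  induction n using Nat.strong_induction_on with
  | _ n ih =>
    intro h hn hh
    by_cases hd : lam ∣ h
    · obtain ⟨g, rfl⟩ := hd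
      have hg : g ≠ 0 := right_ne_zero_of_mul hh
      have hlt : N g < n := by
        rw [← hn, N_mul, N_lam]
        have := Vale.Agent.P006.N_pos hg
        omega
      obtain ⟨u, j, m, hu, hm, hg'⟩ := ih (N g) hlt g rfl hg
      exact ⟨u, j + 1, m, hu, hm, by rw [hg']; ring⟩
    · obtain ⟨u, hu, hp⟩ := exists_unit_prim hd
      obtain ⟨v, rfl⟩ := hu
      refine ⟨(v⁻¹ : Oˣ), 0, v * h, Units.isUnit _, hp, ?_⟩
      rw [pow_zero, mul_one, ← mul_assoc]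
      simp

/-- the decomposition `h = t h1 h2² h4³` with `N t ≤ 9` -/
theorem decomp (h : O) (hh : h ≠ 0) :
    ∃ t h1 h2 h4 : O, t ∈ Hn 9 ∧ Prim h1 ∧ Squarefree h1 ∧ Prim h2 ∧ Squarefree h2 ∧
      IsCoprime h1 h2 ∧ h4 ≠ 0 ∧ h = t * h1 * h2 ^ 2 * h4 ^ 3 := by
  obtain ⟨u, j, m, hu, hm, rfl⟩ := exists_lam_pow h hh
  obtain ⟨h1, h2, h3, a1, b1, a2, b2, hc, a3, rfl⟩ := prim_decomp m hm
  refine ⟨u * lam ^ (j % 3), h1, h2, lam ^ (j / 3) * h3, ?_, a1, b1, a2, b2, hc,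
    mul_ne_zero (pow_ne_zero _ lam_ne_zero) a3.ne_zero, ?_⟩
  · rw [mem_Hn]
    refine ⟨?_, mul_ne_zero hu.ne_zero (pow_ne_zero _ lam_ne_zero)⟩
    have h3 : j % 3 < 3 := Nat.mod_lt _ (by norm_num)
    rw [N_mul, isUnit_iff_N.1 hu, N_pow, N_lam, one_mul]
    interval_cases j % 3 <;> norm_num
  · conv_lhs => rw [← Nat.mod_add_div j 3]
    rw [pow_add, pow_mul]
    ring

/-- the index set of the decomposition -/
abbrev Quad : Type := O × O × O × O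

/-- the map `(t, h1, h2, h4) ↦ t h1 h2² h4³` -/
def qmap (x : Quad) : O := x.1 * x.2.1 * x.2.2.1 ^ 2 * x.2.2.2 ^ 3

/-- the case `N(h2) ≤ N(h1)` -/
noncomputable def QA (H : ℝ) : Finset Quad :=
  (Hn 9 ×ˢ SF H ×ˢ SF H ×ˢ Hn H).filter
    (fun x => (N x.2.1 : ℝ) * (N x.2.2.1 : ℝ) ^ 2 * (N x.2.2.2 : ℝ) ^ 3 ≤ H ∧
      N x.2.2.1 ≤ N x.2.1)

/-- the case `N(h1) ≤ N(h2)` -/
noncomputable def QB (H : ℝ) : Finset Quad :=
  (Hn 9 ×ˢ SF H ×ˢ SF H ×ˢ Hn H).filter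
    (fun x => (N x.2.1 : ℝ) * (N x.2.2.1 : ℝ) ^ 2 * (N x.2.2.2 : ℝ) ^ 3 ≤ H ∧
      N x.2.1 ≤ N x.2.2.1)

theorem sum_Hn_le (H : ℝ) (g : O → ℝ) (hg : ∀ h, 0 ≤ g h) :
    ∑ h ∈ Hn H, g h ≤ ∑ x ∈ QA H, g (qmap x) + ∑ x ∈ QB H, g (qmap x) := by
  classical
  calc ∑ h ∈ Hn H, g h ≤ ∑ x ∈ QA H ∪ QB H, g (qmap x) := by
        apply sum_le_sum_cover _ _ _ _ _ hg
        intro h hh
        rw [mem_Hn] at hh
        obtain ⟨t, h1, h2, h4, ht, a1, b1, a2, b2, -, a4, rfl⟩ := decomp h hh.2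
        refine ⟨(t, h1, h2, h4), ?_, rfl⟩
        have ht' := (mem_Hn.1 ht).2
        have p0 : (1 : ℝ) ≤ N t := by exact_mod_cast Vale.Agent.P006.N_pos ht'
        have p1 : (1 : ℝ) ≤ N h1 := by exact_mod_cast a1.N_pos
        have p2 : (1 : ℝ) ≤ N h2 := by exact_mod_cast a2.N_pos
        have p4 : (1 : ℝ) ≤ N h4 := by exact_mod_cast Vale.Agent.P006.N_pos a4
        have hle : (N t : ℝ) * N h1 * (N h2 : ℝ) ^ 2 * (N h4 : ℝ) ^ 3 ≤ H := by
          have := hh.1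
          rw [N_mul, N_mul, N_mul, N_pow, N_pow] at this
          push_cast at this
          exact this
        have hw : (N h1 : ℝ) * (N h2 : ℝ) ^ 2 * (N h4 : ℝ) ^ 3 ≤ H := by
          refine le_trans ?_ hle
          have : (N h1 : ℝ) ≤ (N t : ℝ) * N h1 := by nlinarith
          gcongr
        have q2 : (1 : ℝ) ≤ (N h2 : ℝ) ^ 2 := one_le_pow₀ p2
        have q4 : (1 : ℝ) ≤ (N h4 : ℝ) ^ 3 := one_le_pow₀ p4
        have r1 : (N h1 : ℝ) ≤ H := by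
          refine le_trans ?_ hw
          have : (N h1 : ℝ) * 1 * 1 ≤ (N h1 : ℝ) * (N h2 : ℝ) ^ 2 * (N h4 : ℝ) ^ 3 := by
            gcongr
          linarith
        have r2 : (N h2 : ℝ) ≤ H := by
          refine le_trans ?_ hw
          have h5 : (N h2 : ℝ) ≤ (N h2 : ℝ) ^ 2 := by nlinarith
          have : 1 * (N h2 : ℝ) * 1 ≤ (N h1 : ℝ) * (N h2 : ℝ) ^ 2 * (N h4 : ℝ) ^ 3 := by
            gcongr
          linarith
        have r4 : (N h4 : ℝ) ≤ H := by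
          refine le_trans ?_ hw
          have h5 : (N h4 : ℝ) ≤ (N h4 : ℝ) ^ 3 := by nlinarith [sq_nonneg ((N h4 : ℝ))]
          have : 1 * 1 * (N h4 : ℝ) ≤ (N h1 : ℝ) * (N h2 : ℝ) ^ 2 * (N h4 : ℝ) ^ 3 := by
            gcongr
          linarith
        rw [mem_union, QA, QB, mem_filter, mem_filter]
        have hmem : (t, h1, h2, h4) ∈ Hn 9 ×ˢ SF H ×ˢ SF H ×ˢ Hn H := by
          simp only [mem_product, mem_SF, mem_Hn]
          exact ⟨mem_Hn.1 ht, ⟨r1, a1, b1⟩, ⟨r2, a2, b2⟩, r4, a4⟩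
        rcases le_total (N h2) (N h1) with h6 | h6
        · left; exact ⟨hmem, hw, h6⟩
        · right; exact ⟨hmem, hw, h6⟩
    _ ≤ _ := by
        have := sum_union_inter (s₁ := QA H) (s₂ := QB H) (f := fun x => g (qmap x))
        have h2 : 0 ≤ ∑ x ∈ QA H ∩ QB H, g (qmap x) := sum_nonneg fun x _ => hg _
        linarith

end Vale.Agent.P006.HB
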