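import Vale.Agent.P006.H357.Alg

/-!
P006, block HB: duality, the abstract cubic symbol, the large sieve predicates.
-/

namespace Vale.Agent.P006.HB

open Vale.Agent.P006 Finset

/-! ### elementary inequalities for finite sums -/

theorem norm_sum_mul_sq_le {ι : Type*} (s : Finset ι) (a b : ι → ℂ) :
    ‖∑ i ∈ s, a i * b i‖ ^ 2 ≤ (∑ i ∈ s, ‖a i‖ ^ 2) * ∑ i ∈ s, ‖b i‖ ^ 2 := by
  calc ‖∑ i ∈ s, a i * b i‖ ^ 2 ≤ (∑ i ∈ s, ‖a i‖ * ‖b i‖) ^ 2 := by
        gcongr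
        exact (norm_sum_le _ _).trans (le_of_eq (sum_congr rfl fun i _ => norm_mul _ _))
    _ ≤ _ := sum_mul_sq_le_sq_mul_sq s _ _

/-- duality principle for a finite matrix -/
theorem duality {ι κ : Type*} (s : Finset ι) (t : Finset κ) (M : ι → κ → ℂ) {B : ℝ}
    (hB : 0 ≤ B)
    (h : ∀ a : κ → ℂ, ∑ i ∈ s, ‖∑ j ∈ t, a j * M i j‖ ^ 2 ≤ B * ∑ j ∈ t, ‖a j‖ ^ 2)
    (b : ι → ℂ) :
    ∑ j ∈ t, ‖∑ i ∈ s, b i * M i j‖ ^ 2 ≤ B * ∑ i ∈ s, ‖b i‖ ^ 2 := by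
  set T : κ → ℂ := fun j => ∑ i ∈ s, b i * M i j with hT
  set S : ℝ := ∑ j ∈ t, ‖T j‖ ^ 2 with hS
  have hS0 : 0 ≤ S := by positivity
  have h1 : (S : ℂ) = ∑ i ∈ s, b i * ∑ j ∈ t, (starRingEnd ℂ) (T j) * M i j := by
    rw [hS]
    push_cast
    have : ∀ j ∈ t, ((‖T j‖ : ℂ)) ^ 2 = ∑ i ∈ s, b i * ((starRingEnd ℂ) (T j) * M i j) := by
      intro j _
      rw [← Complex.mul_conj', hT]
      simp only
      rw [sum_mul]
      exact sum_congr rfl fun i _ => by ring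
    rw [sum_congr rfl this, sum_comm]
    exact sum_congr rfl fun i _ => by rw [mul_sum]
  have h2 : S ^ 2 ≤ (∑ i ∈ s, ‖b i‖ ^ 2) * (B * S) := by
    have h3 : ‖(S : ℂ)‖ = S := by rw [Complex.norm_real, Real.norm_of_nonneg hS0]
    calc S ^ 2 = ‖(S : ℂ)‖ ^ 2 := by rw [h3]
      _ ≤ (∑ i ∈ s, ‖b i‖ ^ 2) * ∑ i ∈ s, ‖∑ j ∈ t, (starRingEnd ℂ) (T j) * M i j‖ ^ 2 := by
          rw [h1]; exact norm_sum_mul_sq_le _ _ _
      _ ≤ (∑ i ∈ s, ‖b i‖ ^ 2) * (B * ∑ j ∈ t, ‖(starRingEnd ℂ) (T j)‖ ^ 2) := by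
          gcongr
          exact h fun j => (starRingEnd ℂ) (T j)
      _ = _ := by simp [hS]
  rcases hS0.eq_or_lt with h0 | h0
  · rw [← h0]; positivity
  · have h4 : S * S ≤ (B * ∑ i ∈ s, ‖b i‖ ^ 2) * S := by nlinarith
    exact le_of_mul_le_mul_right h4 h0

/-- a sum of nonnegative terms over a set covered by the image of `φ` -/
theorem sum_le_sum_cover {α β : Type*} (S : Finset α) (T : Finset β) (φ : β → α)
    (hcov : ∀ a ∈ S, ∃ b ∈ T, φ b = a) (g : α → ℝ) (hg : ∀ a, 0 ≤ g a) :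
    ∑ a ∈ S, g a ≤ ∑ b ∈ T, g (φ b) := by
  classical
  calc ∑ a ∈ S, g a ≤ ∑ a ∈ T.image φ, g a := by
        apply sum_le_sum_of_subset_of_nonneg
        · intro a ha
          rw [mem_image]
          exact hcov a ha
        · intro a _ _; exact hg a
    _ ≤ ∑ b ∈ T, g (φ b) := by
        apply sum_image_le_of_nonneg
        intro b _; exact hg _

/-! ### the abstract cubic symbol -/

/-- The properties of the cubic residue symbol `χ k n = (n/k)_3`, `k` primary, used in this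
block. -/
structure CSym (χ : O → O → ℂ) : Prop where
  mul_right : ∀ k m n : O, Prim k → χ k (m * n) = χ k m * χ k n
  mul_left : ∀ k l n : O, Prim k → Prim l → χ (k * l) n = χ k n * χ l n
  one_left : ∀ n : O, χ 1 n = 1
  cube_eq_one : ∀ k n : O, Prim k → IsCoprime k n → χ k n ^ 3 = 1
  eq_zero : ∀ k n : O, Prim k → ¬ IsCoprime k n → χ k n = 0
  recip : ∀ k l : O, Prim k → Prim l → χ k l = χ l k

namespace CSym

variable {χ : O → O → ℂ} (hχ : CSym χ)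

include hχ

theorem norm_eq_one {k n : O} (hk : Prim k) (h : IsCoprime k n) : ‖χ k n‖ = 1 := by
  have h1 := congrArg norm (hχ.cube_eq_one k n hk h)
  rw [norm_pow, norm_one] at h1
  exact (pow_eq_one_iff_of_nonneg (norm_nonneg _) (by norm_num)).1 h1

theorem norm_le_one {k : O} (n : O) (hk : Prim k) : ‖χ k n‖ ≤ 1 := by
  by_cases h : IsCoprime k n
  · exact (hχ.norm_eq_one hk h).le
  · rw [hχ.eq_zero k n hk h]; simp

theorem sq_eq_conj {k : O} (n : O) (hk : Prim k) : χ k n ^ 2 = (starRingEnd ℂ) (χ k n) := by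
  by_cases h : IsCoprime k n
  · have h1 := hχ.cube_eq_one k n hk h
    have h2 : χ k n * (starRingEnd ℂ) (χ k n) = 1 := by
      rw [Complex.mul_conj', hχ.norm_eq_one hk h]; simp
    have h3 : χ k n ≠ 0 := by
      intro h0; rw [h0] at h1; norm_num at h1
    apply mul_left_cancel₀ h3
    rw [h2, ← h1]; ring
  · rw [hχ.eq_zero k n hk h]; simp

theorem map_pow {k : O} (n : O) (j : ℕ) (hk : Prim k) (h1 : χ k 1 = 1) :
    χ k (n ^ j) = χ k n ^ j := by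
  induction j with
  | zero => simpa using h1
  | succ j ih => rw [pow_succ, hχ.mul_right _ _ _ hk, ih, pow_succ]

theorem one_right {k : O} (hk : Prim k) : χ k 1 = 1 := by
  rw [hχ.recip k 1 hk prim_one, hχ.one_left]

end CSym

/-! ### large sieve predicates -/

/-- `∑_{n∈P_M} |∑_{k∈P_K} c_k χ_k(n)|² ≤ B ∑|c_k|²` -/
def LS (χ : O → O → ℂ) (K M B : ℝ) : Prop :=
  ∀ c : O → ℂ, ∑ n ∈ SF M, ‖∑ k ∈ SF K, c k * χ k n‖ ^ 2 ≤ B * ∑ k ∈ SF K, ‖c k‖ ^ 2

/-- `∑_{0<N(h)≤H} |∑_{k∈P_K} c_k χ_k(h)|² ≤ B ∑|c_k|²` -/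
def LSF (χ : O → O → ℂ) (K H B : ℝ) : Prop :=
  ∀ c : O → ℂ, ∑ h ∈ Hn H, ‖∑ k ∈ SF K, c k * χ k h‖ ^ 2 ≤ B * ∑ k ∈ SF K, ‖c k‖ ^ 2

theorem LS.mono {χ : O → O → ℂ} {K M B B' : ℝ} (h : LS χ K M B) (hB : B ≤ B') :
    LS χ K M B' := fun c => (h c).trans (by gcongr)

theorem LSF.mono {χ : O → O → ℂ} {K M B B' : ℝ} (h : LSF χ K M B) (hB : B ≤ B') :
    LSF χ K M B' := fun c => (h c).trans (by gcongr)

theorem LS.symm {χ : O → O → ℂ} (hχ : CSym χ) {K M B : ℝ} (hB : 0 ≤ B) (h : LS χ K M B) :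
    LS χ M K B := by
  intro c
  have h1 := duality (SF M) (SF K) (fun n k => χ k n) hB h c
  refine le_trans (le_of_eq ?_) h1
  refine sum_congr rfl fun k hk => ?_
  rw [mem_SF] at hk
  congr 2
  refine sum_congr rfl fun n hn => ?_
  rw [mem_SF] at hn
  rw [hχ.recip n k hn.2.1 hk.2.1]

theorem LS.mono_outer {χ : O → O → ℂ} {K M M' B : ℝ} (h : LS χ K M' B) (hM : M ≤ M') :
    LS χ K M B := by
  intro c
  refine le_trans ?_ (h c)
  exact sum_le_sum_of_subset_of_nonneg (SF_mono hM) fun _ _ _ => by positivity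

theorem LSF.mono_outer {χ : O → O → ℂ} {K M M' B : ℝ} (h : LSF χ K M' B) (hM : M ≤ M') :
    LSF χ K M B := by
  intro c
  refine le_trans ?_ (h c)
  exact sum_le_sum_of_subset_of_nonneg (Hn_mono hM) fun _ _ _ => by positivity

open Classical in
/-- restricting the coefficients to a subset -/
theorem sum_restrict {K K' : ℝ} (hK : K ≤ K') (c f : O → ℂ) :
    ∑ k ∈ SF K', (if k ∈ SF K then c k else 0) * f k = ∑ k ∈ SF K, c k * f k := by
  rw [← sum_subset (SF_mono hK)]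
  · refine sum_congr rfl fun k hk => by rw [if_pos hk]
  · intro k _ hk
    rw [if_neg hk, zero_mul]

open Classical in
theorem sum_restrict_sq {K K' : ℝ} (hK : K ≤ K') (c : O → ℂ) :
    ∑ k ∈ SF K', ‖(if k ∈ SF K then c k else 0 : ℂ)‖ ^ 2 = ∑ k ∈ SF K, ‖c k‖ ^ 2 := by
  rw [← sum_subset (SF_mono hK)]
  · refine sum_congr rfl fun k hk => by rw [if_pos hk]
  · intro k _ hk
    rw [if_neg hk]; simp

theorem LS.mono_inner {χ : O → O → ℂ} {K K' M B : ℝ} (h : LS χ K' M B) (hK : K ≤ K') :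
    LS χ K M B := by
  classical
  intro c
  have h1 := h (fun k => if k ∈ SF K then c k else 0)
  rw [sum_restrict_sq hK] at h1
  refine le_trans (le_of_eq ?_) h1
  refine sum_congr rfl fun n _ => ?_
  rw [sum_restrict hK]

theorem LSF.mono_inner {χ : O → O → ℂ} {K K' M B : ℝ} (h : LSF χ K' M B) (hK : K ≤ K') :
    LSF χ K M B := by
  classical
  intro c
  have h1 := h (fun k => if k ∈ SF K then c k else 0)
  rw [sum_restrict_sq hK] at h1
  refine le_trans (le_of_eq ?_) h1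
  refine sum_congr rfl fun n _ => ?_
  rw [sum_restrict hK]

/-- trivial bound -/
theorem LS_trivial {χ : O → O → ℂ} (hχ : CSym χ) {ε : ℝ} (hε : 0 < ε) :
    ∃ C : ℝ, 0 < C ∧ ∀ K M : ℝ, 1 ≤ K → 1 ≤ M → LS χ K M (C * (K * M) ^ ε * (K * M)) := by
  obtain ⟨C, hC, h⟩ := card_Hn_le hε
  refine ⟨C * C, by positivity, fun K M hK hM c => ?_⟩
  have hcard : ∀ X : ℝ, 1 ≤ X → ((SF X).card : ℝ) ≤ C * X ^ (1 + ε) := by
    intro X hX
    refine le_trans ?_ (h X (by linarith))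
    exact_mod_cast card_le_card (SF_subset_Hn X)
  have h1 : ∀ n ∈ SF M, ‖∑ k ∈ SF K, c k * χ k n‖ ^ 2 ≤
      (∑ k ∈ SF K, ‖c k‖ ^ 2) * (SF K).card := by
    intro n _
    refine (norm_sum_mul_sq_le _ _ _).trans ?_
    gcongr
    calc ∑ k ∈ SF K, ‖χ k n‖ ^ 2 ≤ ∑ k ∈ SF K, (1 : ℝ) := by
          refine sum_le_sum fun k hk => ?_
          rw [mem_SF] at hk
          exact pow_le_one₀ (norm_nonneg _) (hχ.norm_le_one n hk.2.1)
      _ = (SF K).card := by simp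
  calc ∑ n ∈ SF M, ‖∑ k ∈ SF K, c k * χ k n‖ ^ 2
      ≤ ∑ n ∈ SF M, (∑ k ∈ SF K, ‖c k‖ ^ 2) * (SF K).card := sum_le_sum h1
    _ = (SF M).card * ((∑ k ∈ SF K, ‖c k‖ ^ 2) * (SF K).card) := by
        rw [sum_const, nsmul_eq_mul]
    _ ≤ (C * M ^ (1 + ε)) * ((∑ k ∈ SF K, ‖c k‖ ^ 2) * (C * K ^ (1 + ε))) := by
        gcongr
        · exact hcard M hM
        · exact hcard K hK
    _ = C * C * (K * M) ^ ε * (K * M) * ∑ k ∈ SF K, ‖c k‖ ^ 2 := by
        rw [Real.mul_rpow (by linarith) (by linarith), Real.rpow_add (by linarith),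
          Real.rpow_add (by linarith), Real.rpow_one, Real.rpow_one]
        ring

end Vale.Agent.P006.HB
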