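import Vale.Agent.P006.H357.Main

/-!
P006, block HB: (LS4) the dual position with arbitrary bounded coefficients on all `h`.
-/

namespace Vale.Agent.P006.HB

open Vale.Agent.P006 Finset

variable {χ : O → O → ℂ}

open Classical in
/-- a chosen decomposition of `h` -/
noncomputable def dec (h : O) : Quad :=
  if hh : h ≠ 0 then
    (Classical.choose (decomp h hh),
      Classical.choose (Classical.choose_spec (decomp h hh)),
      Classical.choose (Classical.choose_spec (Classical.choose_spec (decomp h hh))),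
      Classical.choose (Classical.choose_spec (Classical.choose_spec
        (Classical.choose_spec (decomp h hh)))))
  else (0, 0, 0, 0)

theorem dec_spec {h : O} (hh : h ≠ 0) :
    (dec h).1 ∈ Hn 9 ∧ Prim (dec h).2.1 ∧ Squarefree (dec h).2.1 ∧ Prim (dec h).2.2.1 ∧
      Squarefree (dec h).2.2.1 ∧ IsCoprime (dec h).2.1 (dec h).2.2.1 ∧ (dec h).2.2.2 ≠ 0 ∧
      h = qmap (dec h) := by
  have := Classical.choose_spec (Classical.choose_spec (Classical.choose_spec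
        (Classical.choose_spec (decomp h hh))))
  simp only [dec, dif_pos hh, qmap]
  exact this

theorem dec_bounds {h : O} {M : ℝ} (hh : h ≠ 0) (hM : (N h : ℝ) ≤ M) :
    (N (dec h).2.1 : ℝ) * (N (dec h).2.2.1 : ℝ) ^ 2 * (N (dec h).2.2.2 : ℝ) ^ 3 ≤ M ∧
      (N (dec h).2.1 : ℝ) ≤ M ∧ (N (dec h).2.2.1 : ℝ) ≤ M ∧ (N (dec h).2.2.2 : ℝ) ≤ M := by
  obtain ⟨ht, a1, -, a2, -, -, a4, heq⟩ := dec_spec hh
  set t := (dec h).1
  set h1 := (dec h).2.1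
  set h2 := (dec h).2.2.1
  set h4 := (dec h).2.2.2
  have ht' := (mem_Hn.1 ht).2
  have p0 : (1 : ℝ) ≤ N t := by exact_mod_cast Vale.Agent.P006.N_pos ht'
  have p1 : (1 : ℝ) ≤ N h1 := by exact_mod_cast a1.N_pos
  have p2 : (1 : ℝ) ≤ N h2 := by exact_mod_cast a2.N_pos
  have p4 : (1 : ℝ) ≤ N h4 := by exact_mod_cast Vale.Agent.P006.N_pos a4
  have hle : (N t : ℝ) * N h1 * (N h2 : ℝ) ^ 2 * (N h4 : ℝ) ^ 3 ≤ M := by
    have h5 : (N h : ℝ) = (N t : ℝ) * N h1 * (N h2 : ℝ) ^ 2 * (N h4 : ℝ) ^ 3 := by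
      conv_lhs => rw [heq]
      rw [qmap, N_mul, N_mul, N_mul, N_pow, N_pow]
      push_cast
      rfl
    linarith
  have hw : (N h1 : ℝ) * (N h2 : ℝ) ^ 2 * (N h4 : ℝ) ^ 3 ≤ M := by
    refine le_trans ?_ hle
    have : (N h1 : ℝ) ≤ (N t : ℝ) * N h1 := by nlinarith
    gcongr
  have q2 : (1 : ℝ) ≤ (N h2 : ℝ) ^ 2 := one_le_pow₀ p2
  have q4 : (1 : ℝ) ≤ (N h4 : ℝ) ^ 3 := one_le_pow₀ p4
  refine ⟨hw, ?_, ?_, ?_⟩
  · refine le_trans ?_ hw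
    have : (N h1 : ℝ) * 1 * 1 ≤ (N h1 : ℝ) * (N h2 : ℝ) ^ 2 * (N h4 : ℝ) ^ 3 := by
      gcongr
    linarith
  · refine le_trans ?_ hw
    have h5 : (N h2 : ℝ) ≤ (N h2 : ℝ) ^ 2 := by nlinarith
    have : 1 * (N h2 : ℝ) * 1 ≤ (N h1 : ℝ) * (N h2 : ℝ) ^ 2 * (N h4 : ℝ) ^ 3 := by
      gcongr
    linarith
  · refine le_trans ?_ hw
    have h5 : (N h4 : ℝ) ≤ (N h4 : ℝ) ^ 3 := by nlinarith [sq_nonneg ((N h4 : ℝ))]
    have : 1 * 1 * (N h4 : ℝ) ≤ (N h1 : ℝ) * (N h2 : ℝ) ^ 2 * (N h4 : ℝ) ^ 3 := by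
      gcongr
    linarith

open Classical in
/-- exact reindexing by the chosen decomposition -/
theorem sum_Hn_eq (M : ℝ) (f : O → ℂ) :
    ∑ h ∈ Hn M, f h = ∑ t ∈ Hn 9, ∑ h2 ∈ SF M, ∑ h4 ∈ Hn M, ∑ h1 ∈ SF M,
      if (N (qmap (t, h1, h2, h4)) : ℝ) ≤ M ∧ dec (qmap (t, h1, h2, h4)) = (t, h1, h2, h4) then
        f (qmap (t, h1, h2, h4)) else 0 := by
  have e1 : ∑ t ∈ Hn 9, ∑ h2 ∈ SF M, ∑ h4 ∈ Hn M, ∑ h1 ∈ SF M,
      (if (N (qmap (t, h1, h2, h4)) : ℝ) ≤ M ∧ dec (qmap (t, h1, h2, h4)) = (t, h1, h2, h4) then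
        f (qmap (t, h1, h2, h4)) else 0) =
      ∑ x ∈ Hn 9 ×ˢ SF M ×ˢ Hn M ×ˢ SF M,
      if (N (qmap (x.1, x.2.2.2, x.2.1, x.2.2.1)) : ℝ) ≤ M ∧
        dec (qmap (x.1, x.2.2.2, x.2.1, x.2.2.1)) = (x.1, x.2.2.2, x.2.1, x.2.2.1) then
        f (qmap (x.1, x.2.2.2, x.2.1, x.2.2.1)) else 0 := by
    rw [sum_product]
    refine sum_congr rfl fun t _ => ?_
    rw [sum_product]
    refine sum_congr rfl fun h2 _ => ?_
    rw [sum_product]
  rw [e1, ← sum_filter]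
  refine sum_nbij' (fun h => ((dec h).1, (dec h).2.2.1, (dec h).2.2.2, (dec h).2.1))
    (fun x => qmap (x.1, x.2.2.2, x.2.1, x.2.2.1)) ?_ ?_ ?_ ?_ ?_
  · intro h hh
    rw [mem_Hn] at hh
    obtain ⟨b0, b1, b2, b4⟩ := dec_bounds hh.2 hh.1
    obtain ⟨ht, a1, s1, a2, s2, -, a4, heq⟩ := dec_spec hh.2
    simp only [mem_filter, mem_product, mem_SF, mem_Hn]
    have e2 : ((dec h).1, (dec h).2.1, (dec h).2.2.1, (dec h).2.2.2) = dec h := rfl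
    rw [e2, ← heq]
    refine ⟨⟨mem_Hn.1 ht, ⟨b2, a2, s2⟩, ⟨b4, a4⟩, b1, a1, s1⟩, hh.1, rfl⟩
  · intro x hx
    simp only [mem_filter, mem_product, mem_SF, mem_Hn] at hx
    rw [mem_Hn]
    refine ⟨hx.2.1, ?_⟩
    simp only [qmap]
    exact mul_ne_zero (mul_ne_zero (mul_ne_zero hx.1.1.2 hx.1.2.2.2.2.1.ne_zero)
      (pow_ne_zero _ hx.1.2.1.2.1.ne_zero)) (pow_ne_zero _ hx.1.2.2.1.2)
  · intro h hh
    rw [mem_Hn] at hh
    exact (dec_spec hh.2).2.2.2.2.2.2.2.symm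
  · intro x hx
    simp only [mem_filter] at hx
    have h5 := hx.2.2
    simp only [h5]
  · intro h hh
    rw [mem_Hn] at hh
    have h5 := (dec_spec hh.2).2.2.2.2.2.2.2
    exact congrArg f h5

/-- weighted Cauchy-Schwarz -/
theorem weighted_cauchy {ι : Type*} (s : Finset ι) (w : ι → ℝ) (hw : ∀ i ∈ s, 0 < w i)
    (z : ι → ℂ) : ‖∑ i ∈ s, z i‖ ^ 2 ≤ (∑ i ∈ s, w i) * ∑ i ∈ s, (w i)⁻¹ * ‖z i‖ ^ 2 := by
  have h := norm_sum_mul_sq_le s (fun i => ((Real.sqrt (w i) : ℝ) : ℂ))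
    (fun i => ((Real.sqrt (w i))⁻¹ : ℝ) * z i)
  have e1 : ∑ i ∈ s, ((Real.sqrt (w i) : ℝ) : ℂ) * (((Real.sqrt (w i))⁻¹ : ℝ) * z i) =
      ∑ i ∈ s, z i := by
    refine sum_congr rfl fun i hi => ?_
    have h0 : Real.sqrt (w i) ≠ 0 := (Real.sqrt_pos.2 (hw i hi)).ne'
    rw [← mul_assoc, ← Complex.ofReal_mul, mul_inv_cancel₀ h0]; simp
  have e2 : ∑ i ∈ s, ‖((Real.sqrt (w i) : ℝ) : ℂ)‖ ^ 2 = ∑ i ∈ s, w i := by
    refine sum_congr rfl fun i hi => ?_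
    rw [Complex.norm_real, Real.norm_of_nonneg (Real.sqrt_nonneg _), Real.sq_sqrt (hw i hi).le]
  have e3 : ∑ i ∈ s, ‖(((Real.sqrt (w i))⁻¹ : ℝ) : ℂ) * z i‖ ^ 2 =
      ∑ i ∈ s, (w i)⁻¹ * ‖z i‖ ^ 2 := by
    refine sum_congr rfl fun i hi => ?_
    rw [norm_mul, mul_pow, Complex.norm_real, Real.norm_of_nonneg (by positivity), inv_pow,
      Real.sq_sqrt (hw i hi).le]
  rw [e1, e2, e3] at h
  exact h

/-- (LS4): dual position, arbitrary bounded coefficients on all nonzero `h` -/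
theorem large_sieve_dual (hχ : CSym χ) (hP : PStar χ) :
    ∀ ε : ℝ, 0 < ε → ∃ C : ℝ, 0 < C ∧ ∀ K M : ℝ, 1 ≤ K → 1 ≤ M → ∀ a : O → ℂ,
      (∀ h, ‖a h‖ ≤ 1) → ∑ k ∈ SF K, ‖∑ h ∈ Hn M, a h * χ k h‖ ^ 2 ≤
        C * (K * M) ^ ε * (M * (K + M + (K * M) ^ (2 / 3 : ℝ))) := by
  classical
  intro ε hε
  have hε4 : 0 < ε / 6 := by linarith
  obtain ⟨C1, hC1, h1⟩ := cubic_large_sieve hχ hP (ε / 6) hε4
  obtain ⟨C2, hC2, h2⟩ := sum_inv_N_le hε4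
  obtain ⟨C3, hC3, h3⟩ := card_Hn_le hε4
  set T9 : ℝ := ((Hn 9).card : ℝ) + 1 with hT9
  have hT90 : 0 < T9 := by positivity
  refine ⟨T9 ^ 2 * C2 ^ 4 * C1 * C3, by positivity, fun K M hK hM a ha => ?_⟩
  have hKM : 1 ≤ K * M := one_le_mul_of_one_le_of_one_le hK hM
  -- index set and weights
  set T : Finset (O × O × O) := Hn 9 ×ˢ SF M ×ˢ Hn M with hT
  set w : O × O × O → ℝ := fun x => (N x.2.1 : ℝ)⁻¹ * (N x.2.2 : ℝ)⁻¹ with hw
  set b : O × O × O → O → ℂ := fun x h1 =>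
    if (N (qmap (x.1, h1, x.2.1, x.2.2)) : ℝ) ≤ M ∧
      dec (qmap (x.1, h1, x.2.1, x.2.2)) = (x.1, h1, x.2.1, x.2.2) then
      a (qmap (x.1, h1, x.2.1, x.2.2)) else 0 with hb
  have hb1 : ∀ x h1, ‖b x h1‖ ≤ 1 := by
    intro x h1
    rw [hb]
    simp only
    split_ifs
    · exact ha _
    · simp
  set Y : O × O × O → ℝ := fun x => M / ((N x.2.1 : ℝ) ^ 2 * (N x.2.2 : ℝ) ^ 3) with hY
  have hTpos : ∀ x ∈ T, (1 : ℝ) ≤ N x.2.1 ∧ (1 : ℝ) ≤ N x.2.2 ∧ x.1 ≠ 0 := by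
    intro x hx
    rw [hT, mem_product, mem_product, mem_SF, mem_Hn, mem_Hn] at hx
    refine ⟨?_, ?_, hx.1.2⟩
    · exact_mod_cast hx.2.1.2.1.N_pos
    · exact_mod_cast Vale.Agent.P006.N_pos hx.2.2.2
  have hwpos : ∀ x ∈ T, 0 < w x := by
    intro x hx
    obtain ⟨q1, q2, -⟩ := hTpos x hx
    rw [hw]; positivity
  -- the sum for fixed k
  have hk : ∀ k ∈ SF K, ∑ h ∈ Hn M, a h * χ k h =
      ∑ x ∈ T, χ k (x.1 * x.2.1 ^ 2 * x.2.2 ^ 3) * ∑ h1 ∈ SF (Y x), b x h1 * χ k h1 := by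
    intro k hk
    rw [mem_SF] at hk
    rw [sum_Hn_eq M (fun h => a h * χ k h), hT, sum_product]
    refine sum_congr rfl fun t ht => ?_
    rw [sum_product]
    refine sum_congr rfl fun h2 hh2 => ?_
    refine sum_congr rfl fun h4 hh4 => ?_
    have hx : (t, h2, h4) ∈ T := by
      rw [hT, mem_product, mem_product]; exact ⟨ht, hh2, hh4⟩
    obtain ⟨p2, p4, hpt⟩ := hTpos _ hx
    simp only at p2 p4 hpt
    have hYM : Y (t, h2, h4) ≤ M := by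
      rw [hY]
      apply div_le_self (by linarith)
      exact one_le_mul_of_one_le_of_one_le (one_le_pow₀ p2) (one_le_pow₀ p4)
    rw [mul_sum]
    have e1 : ∀ h1 ∈ SF M, (if (N (qmap (t, h1, h2, h4)) : ℝ) ≤ M ∧
        dec (qmap (t, h1, h2, h4)) = (t, h1, h2, h4) then
        a (qmap (t, h1, h2, h4)) * χ k (qmap (t, h1, h2, h4)) else 0) =
        χ k (t * h2 ^ 2 * h4 ^ 3) * (b (t, h2, h4) h1 * χ k h1) := by
      intro h1 _
      rw [hb]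
      simp only
      split_ifs with hc
      · have e2 : qmap (t, h1, h2, h4) = (t * h2 ^ 2 * h4 ^ 3) * h1 := by
          rw [qmap]; ring
        have e3 : χ k (qmap (t, h1, h2, h4)) = χ k (t * h2 ^ 2 * h4 ^ 3) * χ k h1 := by
          rw [e2, hχ.mul_right _ _ _ hk.2.1]
        rw [e3]; ring
      · ring
    rw [sum_congr rfl e1]
    symm
    apply sum_subset (SF_mono hYM)
    intro h1 hh1 hh1'
    have : b (t, h2, h4) h1 = 0 := by
      rw [hb]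
      simp only
      rw [if_neg]
      rintro ⟨c1, -⟩
      apply hh1'
      rw [mem_SF] at hh1 ⊢
      refine ⟨?_, hh1.2⟩
      rw [hY]
      simp only
      rw [le_div_iff₀ (by positivity)]
      refine le_trans ?_ c1
      rw [qmap, N_mul, N_mul, N_mul, N_pow, N_pow]
      push_cast
      have pt : (1 : ℝ) ≤ N t := by exact_mod_cast Vale.Agent.P006.N_pos hpt
      have : (N h1 : ℝ) ≤ (N t : ℝ) * N h1 := by
        have : (0 : ℝ) ≤ N h1 := by positivity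
        nlinarith
      calc (N h1 : ℝ) * ((N h2 : ℝ) ^ 2 * (N h4 : ℝ) ^ 3)
          = (N h1 : ℝ) * (N h2 : ℝ) ^ 2 * (N h4 : ℝ) ^ 3 := by ring
        _ ≤ _ := by gcongr
    rw [this]; ring
  -- the sum over k for fixed x
  have hxk : ∀ x ∈ T, ∑ k ∈ SF K, ‖χ k (x.1 * x.2.1 ^ 2 * x.2.2 ^ 3) *
      ∑ h1 ∈ SF (Y x), b x h1 * χ k h1‖ ^ 2 ≤
      w x * w x * (C1 * C3 * (K * M) ^ (ε / 6) * (K * M) ^ (ε / 6) *
        (M * (K + M + (K * M) ^ (2 / 3 : ℝ)))) := by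
    intro x hx
    obtain ⟨p2, p4, hpt⟩ := hTpos x hx
    set a2 := (N x.2.1 : ℝ) with ha2
    set a4 := (N x.2.2 : ℝ) with ha4
    have hYM : Y x ≤ M := by
      rw [hY]
      apply div_le_self (by linarith)
      exact one_le_mul_of_one_le_of_one_le (one_le_pow₀ p2) (one_le_pow₀ p4)
    have hYpos : 0 < Y x := by rw [hY]; positivity
    have hpos : 0 ≤ K + M + (K * M) ^ (2 / 3 : ℝ) := by positivity
    rcases lt_or_ge (Y x) 1 with hlt | hge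
    · have hempty : SF (Y x) = ∅ := by
        rw [eq_empty_iff_forall_notMem]
        intro z hz
        rw [mem_SF] at hz
        have : (1 : ℝ) ≤ N z := by exact_mod_cast hz.2.1.N_pos
        linarith [hz.1]
      have : ∑ k ∈ SF K, ‖χ k (x.1 * x.2.1 ^ 2 * x.2.2 ^ 3) *
          ∑ h1 ∈ SF (Y x), b x h1 * χ k h1‖ ^ 2 = 0 := by
        apply sum_eq_zero
        intro k _
        rw [hempty]; simp
      rw [this, hw]
      positivity
    · have hLS := (h1 (Y x) K hge hK) (b x)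
      have e1 : ∑ k ∈ SF K, ‖χ k (x.1 * x.2.1 ^ 2 * x.2.2 ^ 3) *
          ∑ h1 ∈ SF (Y x), b x h1 * χ k h1‖ ^ 2 ≤
          ∑ k ∈ SF K, ‖∑ h1 ∈ SF (Y x), b x h1 * χ h1 k‖ ^ 2 := by
        refine sum_le_sum fun k hk => ?_
        rw [mem_SF] at hk
        have e2 : ∑ h1 ∈ SF (Y x), b x h1 * χ k h1 = ∑ h1 ∈ SF (Y x), b x h1 * χ h1 k := by
          refine sum_congr rfl fun h1 hh1 => ?_
          rw [mem_SF] at hh1
          rw [hχ.recip k h1 hk.2.1 hh1.2.1]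
        rw [e2, norm_mul]
        gcongr
        exact mul_le_of_le_one_left (norm_nonneg _) (hχ.norm_le_one _ hk.2.1)
      have e3 : ∑ h1 ∈ SF (Y x), ‖b x h1‖ ^ 2 ≤ C3 * (Y x) ^ (1 + ε / 6) := by
        calc ∑ h1 ∈ SF (Y x), ‖b x h1‖ ^ 2 ≤ ∑ h1 ∈ SF (Y x), (1 : ℝ) := by
              refine sum_le_sum fun h1 _ => ?_
              exact pow_le_one₀ (norm_nonneg _) (hb1 x h1)
          _ = (SF (Y x)).card := by simp
          _ ≤ (Hn (Y x)).card := by exact_mod_cast card_le_card (SF_subset_Hn _)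
          _ ≤ _ := h3 _ hYpos.le
      have e4 : (Y x) ^ (1 + ε / 6) = Y x * (Y x) ^ (ε / 6) := by
        rw [Real.rpow_add hYpos, Real.rpow_one]
      have e5 : (Y x) ^ (ε / 6) ≤ (K * M) ^ (ε / 6) := by
        gcongr
        nlinarith
      have e6 : Y x ≤ w x * w x * M := by
        rw [hY, hw]
        simp only
        rw [← ha2, ← ha4]
        have : a2⁻¹ * a4⁻¹ * (a2⁻¹ * a4⁻¹) * M = M / (a2 ^ 2 * a4 ^ 2) := by
          field_simp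
        rw [this]
        gcongr
        norm_num
      calc ∑ k ∈ SF K, ‖χ k (x.1 * x.2.1 ^ 2 * x.2.2 ^ 3) *
          ∑ h1 ∈ SF (Y x), b x h1 * χ k h1‖ ^ 2
          ≤ C1 * (Y x * K) ^ (ε / 6) * (Y x + K + (Y x * K) ^ (2 / 3 : ℝ)) *
            ∑ h1 ∈ SF (Y x), ‖b x h1‖ ^ 2 := e1.trans hLS
        _ ≤ C1 * (M * K) ^ (ε / 6) * (M + K + (M * K) ^ (2 / 3 : ℝ)) *
            (C3 * ((w x * w x * M) * (K * M) ^ (ε / 6))) := by
            have hwx := (hwpos x hx).le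
            have e7 : ∑ h1 ∈ SF (Y x), ‖b x h1‖ ^ 2 ≤
                C3 * ((w x * w x * M) * (K * M) ^ (ε / 6)) := by
              refine e3.trans ?_
              rw [e4]
              gcongr
            gcongr
        _ = w x * w x * (C1 * C3 * (K * M) ^ (ε / 6) * (K * M) ^ (ε / 6) *
              (M * (K + M + (K * M) ^ (2 / 3 : ℝ)))) := by
            rw [mul_comm M K, add_comm M K]; ring
  set R : ℝ := C1 * C3 * (K * M) ^ (ε / 6) * (K * M) ^ (ε / 6) *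
        (M * (K + M + (K * M) ^ (2 / 3 : ℝ))) with hR
  have hR0 : 0 ≤ R := by rw [hR]; positivity
  have hsumw : ∑ x ∈ T, w x ≤ T9 * (C2 * (K * M) ^ (ε / 6)) ^ 2 := by
    rw [hT, sum_product]
    have e1 : ∀ t ∈ Hn 9, ∑ y ∈ SF M ×ˢ Hn M, w (t, y) =
        (∑ h ∈ SF M, (N h : ℝ)⁻¹) * ∑ h ∈ Hn M, (N h : ℝ)⁻¹ := by
      intro t _
      rw [sum_product, sum_mul_sum]
    rw [sum_congr rfl e1, sum_const, nsmul_eq_mul]
    have e2 : ∑ h ∈ Hn M, (N h : ℝ)⁻¹ ≤ C2 * (K * M) ^ (ε / 6) := by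
      refine (h2 M (by linarith)).trans ?_
      gcongr
      nlinarith
    have e3 : ∑ h ∈ SF M, (N h : ℝ)⁻¹ ≤ ∑ h ∈ Hn M, (N h : ℝ)⁻¹ :=
      sum_le_sum_of_subset_of_nonneg (SF_subset_Hn M) fun _ _ _ => by positivity
    have e4 : 0 ≤ ∑ h ∈ SF M, (N h : ℝ)⁻¹ := by positivity
    have e5 : 0 ≤ ∑ h ∈ Hn M, (N h : ℝ)⁻¹ := by positivity
    rw [sq]
    have e6 : ((Hn 9).card : ℝ) ≤ T9 := by rw [hT9]; linarith
    gcongr
    exact e3.trans e2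
  calc ∑ k ∈ SF K, ‖∑ h ∈ Hn M, a h * χ k h‖ ^ 2
      = ∑ k ∈ SF K, ‖∑ x ∈ T, χ k (x.1 * x.2.1 ^ 2 * x.2.2 ^ 3) *
          ∑ h1 ∈ SF (Y x), b x h1 * χ k h1‖ ^ 2 := by
        refine sum_congr rfl fun k hk' => ?_
        rw [hk k hk']
    _ ≤ ∑ k ∈ SF K, (∑ x ∈ T, w x) * ∑ x ∈ T, (w x)⁻¹ *
          ‖χ k (x.1 * x.2.1 ^ 2 * x.2.2 ^ 3) * ∑ h1 ∈ SF (Y x), b x h1 * χ k h1‖ ^ 2 :=
        sum_le_sum fun k _ => weighted_cauchy T w hwpos _
    _ = (∑ x ∈ T, w x) * ∑ x ∈ T, (w x)⁻¹ * ∑ k ∈ SF K,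
          ‖χ k (x.1 * x.2.1 ^ 2 * x.2.2 ^ 3) * ∑ h1 ∈ SF (Y x), b x h1 * χ k h1‖ ^ 2 := by
        rw [← mul_sum, sum_comm]
        congr 1
        refine sum_congr rfl fun x _ => ?_
        rw [mul_sum]
    _ ≤ (∑ x ∈ T, w x) * ∑ x ∈ T, (w x)⁻¹ * (w x * w x * R) := by
        have : 0 ≤ ∑ x ∈ T, w x := sum_nonneg fun x hx => (hwpos x hx).le
        refine mul_le_mul_of_nonneg_left (sum_le_sum fun x hx => ?_) this
        have hwx := hwpos x hx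
        exact mul_le_mul_of_nonneg_left (hxk x hx) (by positivity)
    _ = (∑ x ∈ T, w x) * ((∑ x ∈ T, w x) * R) := by
        congr 1
        rw [sum_mul]
        refine sum_congr rfl fun x hx => ?_
        have := (hwpos x hx).ne'
        field_simp
    _ ≤ (T9 * (C2 * (K * M) ^ (ε / 6)) ^ 2) * ((T9 * (C2 * (K * M) ^ (ε / 6)) ^ 2) * R) := by
        have : 0 ≤ ∑ x ∈ T, w x := sum_nonneg fun x hx => (hwpos x hx).le
        gcongr
    _ = T9 ^ 2 * C2 ^ 4 * C1 * C3 * ((K * M) ^ (ε / 6)) ^ 6 *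
          (M * (K + M + (K * M) ^ (2 / 3 : ℝ))) := by
        rw [hR]; ring
    _ = _ := by
        have e : ((K * M) ^ (ε / 6)) ^ 6 = (K * M) ^ ε := by
          rw [← Real.rpow_natCast, ← Real.rpow_mul (by positivity)]
          congr 1; norm_num
        rw [e]

end Vale.Agent.P006.HB
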