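import Vale.Agent.P006.H357.Decomp

/-!
P006, block HB: from squarefree `n` to all `h` in the large sieve (LS2).
-/

namespace Vale.Agent.P006.HB

open Vale.Agent.P006 Finset

variable {χ : O → O → ℂ}

/-- inner sum over `h1`, `h2` and `h4` fixed -/
theorem inner_A (hχ : CSym χ) {K Y B : ℝ} (hLS : LS χ K Y B) (c : O → ℂ) (t h2 h4 : O)
    (hB : 0 ≤ B) :
    ∑ h1 ∈ SF Y, ‖∑ k ∈ SF K, c k * χ k (t * h1 * h2 ^ 2 * h4 ^ 3)‖ ^ 2 ≤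
      B * ∑ k ∈ SF K, ‖c k‖ ^ 2 := by
  have h := hLS (fun k => c k * χ k (t * h2 ^ 2 * h4 ^ 3))
  have e1 : ∀ h1 ∈ SF Y, ‖∑ k ∈ SF K, c k * χ k (t * h1 * h2 ^ 2 * h4 ^ 3)‖ ^ 2 =
      ‖∑ k ∈ SF K, (c k * χ k (t * h2 ^ 2 * h4 ^ 3)) * χ k h1‖ ^ 2 := by
    intro h1 _
    congr 2
    refine sum_congr rfl fun k hk => ?_
    rw [mem_SF] at hk
    have e2 : t * h1 * h2 ^ 2 * h4 ^ 3 = (t * h2 ^ 2 * h4 ^ 3) * h1 := by ring
    rw [e2, hχ.mul_right _ _ h1 hk.2.1]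
    ring
  rw [sum_congr rfl e1]
  refine h.trans ?_
  gcongr with k hk
  rw [mem_SF] at hk
  rw [norm_mul]
  exact mul_le_of_le_one_right (norm_nonneg _) (hχ.norm_le_one _ hk.2.1)

/-- inner sum over `h2`, `h1` and `h4` fixed -/
theorem inner_B (hχ : CSym χ) {K Y B : ℝ} (hLS : LS χ K Y B) (c : O → ℂ) (t h1 h4 : O)
    (hB : 0 ≤ B) :
    ∑ h2 ∈ SF Y, ‖∑ k ∈ SF K, c k * χ k (t * h1 * h2 ^ 2 * h4 ^ 3)‖ ^ 2 ≤
      B * ∑ k ∈ SF K, ‖c k‖ ^ 2 := by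
  have h := hLS (fun k => (starRingEnd ℂ) (c k * χ k (t * h1 * h4 ^ 3)))
  have e1 : ∀ h2 ∈ SF Y, ‖∑ k ∈ SF K, c k * χ k (t * h1 * h2 ^ 2 * h4 ^ 3)‖ ^ 2 =
      ‖∑ k ∈ SF K, (starRingEnd ℂ) (c k * χ k (t * h1 * h4 ^ 3)) * χ k h2‖ ^ 2 := by
    intro h2 _
    rw [← Complex.norm_conj, map_sum]
    congr 2
    refine sum_congr rfl fun k hk => ?_
    rw [mem_SF] at hk
    have e2 : t * h1 * h2 ^ 2 * h4 ^ 3 = (t * h1 * h4 ^ 3) * (h2 * h2) := by ring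
    rw [e2, hχ.mul_right _ _ _ hk.2.1, hχ.mul_right _ h2 h2 hk.2.1, ← sq,
      hχ.sq_eq_conj h2 hk.2.1, map_mul, map_mul, Complex.conj_conj, map_mul]
    ring
  rw [sum_congr rfl e1]
  refine h.trans ?_
  gcongr with k hk
  rw [mem_SF] at hk
  rw [Complex.norm_conj, norm_mul]
  exact mul_le_of_le_one_right (norm_nonneg _) (hχ.norm_le_one _ hk.2.1)

/-- the sum over `QA` -/
theorem sum_QA_le (hχ : CSym χ) {K H : ℝ} (B : ℝ → ℝ) (hB : ∀ Y, 1 ≤ Y → 0 ≤ B Y)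
    (hLS : ∀ Y, 1 ≤ Y → LS χ K Y (B Y)) (c : O → ℂ) (W : ℝ) (hW : 0 ≤ W)
    (hBW : ∀ a b : ℝ, 1 ≤ a → 1 ≤ b → (a * b) ^ 3 ≤ H → B (H / (a ^ 2 * b ^ 3)) ≤
      W * (a⁻¹ * b⁻¹)) :
    ∑ x ∈ QA H, ‖∑ k ∈ SF K, c k * χ k (qmap x)‖ ^ 2 ≤
      (Hn 9).card * (W * ((∑ h ∈ Hn H, (N h : ℝ)⁻¹) * ∑ h ∈ Hn H, (N h : ℝ)⁻¹)) *
        ∑ k ∈ SF K, ‖c k‖ ^ 2 := by
  classical
  set S := ∑ k ∈ SF K, ‖c k‖ ^ 2 with hS
  have hS0 : 0 ≤ S := by positivity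
  rw [QA, sum_filter, sum_product]
  simp only [sum_product]
  have key : ∀ t ∈ Hn 9, (∑ h1 ∈ SF H, ∑ h2 ∈ SF H, ∑ h4 ∈ Hn H,
      if (N h1 : ℝ) * (N h2 : ℝ) ^ 2 * (N h4 : ℝ) ^ 3 ≤ H ∧ N h2 ≤ N h1 then
        ‖∑ k ∈ SF K, c k * χ k (qmap (t, h1, h2, h4))‖ ^ 2 else 0) ≤
      (W * ((∑ h ∈ Hn H, (N h : ℝ)⁻¹) * ∑ h ∈ Hn H, (N h : ℝ)⁻¹)) * S := by
    intro t _
    rw [sum_comm]
    have e1 : ∀ h2 ∈ SF H, (∑ h1 ∈ SF H, ∑ h4 ∈ Hn H,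
        if (N h1 : ℝ) * (N h2 : ℝ) ^ 2 * (N h4 : ℝ) ^ 3 ≤ H ∧ N h2 ≤ N h1 then
        ‖∑ k ∈ SF K, c k * χ k (qmap (t, h1, h2, h4))‖ ^ 2 else 0) ≤
        ∑ h4 ∈ Hn H, (W * ((N h2 : ℝ)⁻¹ * (N h4 : ℝ)⁻¹)) * S := by
      intro h2 hh2
      rw [sum_comm]
      refine sum_le_sum fun h4 hh4 => ?_
      rw [mem_SF] at hh2
      rw [mem_Hn] at hh4
      have p2 : (1 : ℝ) ≤ N h2 := by exact_mod_cast hh2.2.1.N_pos
      have p4 : (1 : ℝ) ≤ N h4 := by exact_mod_cast Vale.Agent.P006.N_pos hh4.2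
      by_cases hcond : ((N h2 : ℝ) * (N h4 : ℝ)) ^ 3 ≤ H
      · set Y := H / ((N h2 : ℝ) ^ 2 * (N h4 : ℝ) ^ 3) with hY
        have hpos : 0 < (N h2 : ℝ) ^ 2 * (N h4 : ℝ) ^ 3 := by positivity
        have hY1 : 1 ≤ Y := by
          rw [hY, le_div_iff₀ hpos, one_mul]
          refine le_trans ?_ hcond
          rw [mul_pow]
          gcongr
          · norm_num
        calc ∑ h1 ∈ SF H, (if (N h1 : ℝ) * (N h2 : ℝ) ^ 2 * (N h4 : ℝ) ^ 3 ≤ H ∧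
              N h2 ≤ N h1 then ‖∑ k ∈ SF K, c k * χ k (qmap (t, h1, h2, h4))‖ ^ 2 else 0)
            ≤ ∑ h1 ∈ SF Y, ‖∑ k ∈ SF K, c k * χ k (t * h1 * h2 ^ 2 * h4 ^ 3)‖ ^ 2 := by
              rw [← sum_filter]
              apply sum_le_sum_of_subset_of_nonneg
              · intro h1 hh1
                rw [mem_filter, mem_SF] at hh1
                rw [mem_SF]
                refine ⟨?_, hh1.1.2⟩
                rw [hY, le_div_iff₀ hpos]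
                have := hh1.2.1
                linarith
              · intro _ _ _; positivity
          _ ≤ B Y * S := inner_A hχ (hLS Y hY1) c t h2 h4 (hB Y hY1)
          _ ≤ (W * ((N h2 : ℝ)⁻¹ * (N h4 : ℝ)⁻¹)) * S := by
              gcongr
              exact hBW _ _ p2 p4 hcond
      · have : ∀ h1 ∈ SF H, (if (N h1 : ℝ) * (N h2 : ℝ) ^ 2 * (N h4 : ℝ) ^ 3 ≤ H ∧
              N h2 ≤ N h1 then ‖∑ k ∈ SF K, c k * χ k (qmap (t, h1, h2, h4))‖ ^ 2 else 0)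
              = 0 := by
          intro h1 _
          rw [if_neg]
          rintro ⟨q1, q2⟩
          apply hcond
          refine le_trans ?_ q1
          have q2' : (N h2 : ℝ) ≤ N h1 := by exact_mod_cast q2
          calc ((N h2 : ℝ) * (N h4 : ℝ)) ^ 3 = (N h2 : ℝ) * (N h2 : ℝ) ^ 2 * (N h4 : ℝ) ^ 3 := by
                ring
            _ ≤ _ := by gcongr
        rw [sum_congr rfl this, sum_const_zero]
        positivity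
    refine (sum_le_sum e1).trans ?_
    clear_value S
    have e2 : ∑ h2 ∈ SF H, ∑ h4 ∈ Hn H, (W * ((N h2 : ℝ)⁻¹ * (N h4 : ℝ)⁻¹)) * S =
        (W * ((∑ h ∈ SF H, (N h : ℝ)⁻¹) * ∑ h ∈ Hn H, (N h : ℝ)⁻¹)) * S := by
      rw [sum_mul_sum, mul_sum, sum_mul]
      refine sum_congr rfl fun h2 _ => ?_
      rw [mul_sum, sum_mul]
    rw [e2]
    gcongr
    exact SF_subset_Hn H
  refine (sum_le_sum key).trans ?_
  rw [sum_const, nsmul_eq_mul]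
  apply le_of_eq; ring

/-- the sum over `QB` -/
theorem sum_QB_le (hχ : CSym χ) {K H : ℝ} (B : ℝ → ℝ) (hB : ∀ Y, 1 ≤ Y → 0 ≤ B Y)
    (hLS : ∀ Y, 1 ≤ Y → LS χ K Y (B Y)) (c : O → ℂ) (W : ℝ) (hW : 0 ≤ W)
    (hBW : ∀ a b : ℝ, 1 ≤ a → 1 ≤ b → (a * b) ^ 3 ≤ H → B (Real.sqrt (H / (a * b ^ 3))) ≤
      W * (a⁻¹ * b⁻¹)) :
    ∑ x ∈ QB H, ‖∑ k ∈ SF K, c k * χ k (qmap x)‖ ^ 2 ≤
      (Hn 9).card * (W * ((∑ h ∈ Hn H, (N h : ℝ)⁻¹) * ∑ h ∈ Hn H, (N h : ℝ)⁻¹)) *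
        ∑ k ∈ SF K, ‖c k‖ ^ 2 := by
  classical
  set S := ∑ k ∈ SF K, ‖c k‖ ^ 2 with hS
  have hS0 : 0 ≤ S := by positivity
  rw [QB, sum_filter, sum_product]
  simp only [sum_product]
  have key : ∀ t ∈ Hn 9, (∑ h1 ∈ SF H, ∑ h2 ∈ SF H, ∑ h4 ∈ Hn H,
      if (N h1 : ℝ) * (N h2 : ℝ) ^ 2 * (N h4 : ℝ) ^ 3 ≤ H ∧ N h1 ≤ N h2 then
        ‖∑ k ∈ SF K, c k * χ k (qmap (t, h1, h2, h4))‖ ^ 2 else 0) ≤
      (W * ((∑ h ∈ Hn H, (N h : ℝ)⁻¹) * ∑ h ∈ Hn H, (N h : ℝ)⁻¹)) * S := by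
    intro t _
    have e1 : ∀ h1 ∈ SF H, (∑ h2 ∈ SF H, ∑ h4 ∈ Hn H,
        if (N h1 : ℝ) * (N h2 : ℝ) ^ 2 * (N h4 : ℝ) ^ 3 ≤ H ∧ N h1 ≤ N h2 then
        ‖∑ k ∈ SF K, c k * χ k (qmap (t, h1, h2, h4))‖ ^ 2 else 0) ≤
        ∑ h4 ∈ Hn H, (W * ((N h1 : ℝ)⁻¹ * (N h4 : ℝ)⁻¹)) * S := by
      intro h1 hh1
      rw [sum_comm]
      refine sum_le_sum fun h4 hh4 => ?_
      rw [mem_SF] at hh1
      rw [mem_Hn] at hh4
      have p1 : (1 : ℝ) ≤ N h1 := by exact_mod_cast hh1.2.1.N_pos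
      have p4 : (1 : ℝ) ≤ N h4 := by exact_mod_cast Vale.Agent.P006.N_pos hh4.2
      by_cases hcond : ((N h1 : ℝ) * (N h4 : ℝ)) ^ 3 ≤ H
      · set Y := Real.sqrt (H / ((N h1 : ℝ) * (N h4 : ℝ) ^ 3)) with hY
        have hpos : 0 < (N h1 : ℝ) * (N h4 : ℝ) ^ 3 := by positivity
        have hY1 : 1 ≤ Y := by
          rw [hY, Real.one_le_sqrt, le_div_iff₀ hpos, one_mul]
          refine le_trans ?_ hcond
          rw [mul_pow]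
          gcongr
          nlinarith [sq_nonneg ((N h1 : ℝ))]
        calc ∑ h2 ∈ SF H, (if (N h1 : ℝ) * (N h2 : ℝ) ^ 2 * (N h4 : ℝ) ^ 3 ≤ H ∧
              N h1 ≤ N h2 then ‖∑ k ∈ SF K, c k * χ k (qmap (t, h1, h2, h4))‖ ^ 2 else 0)
            ≤ ∑ h2 ∈ SF Y, ‖∑ k ∈ SF K, c k * χ k (t * h1 * h2 ^ 2 * h4 ^ 3)‖ ^ 2 := by
              rw [← sum_filter]
              apply sum_le_sum_of_subset_of_nonneg
              · intro h2 hh2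
                rw [mem_filter, mem_SF] at hh2
                rw [mem_SF]
                refine ⟨?_, hh2.1.2⟩
                apply Real.le_sqrt_of_sq_le
                rw [le_div_iff₀ hpos]
                have := hh2.2.1
                linarith
              · intro _ _ _; positivity
          _ ≤ B Y * S := inner_B hχ (hLS Y hY1) c t h1 h4 (hB Y hY1)
          _ ≤ (W * ((N h1 : ℝ)⁻¹ * (N h4 : ℝ)⁻¹)) * S := by
              gcongr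
              exact hBW _ _ p1 p4 hcond
      · have : ∀ h2 ∈ SF H, (if (N h1 : ℝ) * (N h2 : ℝ) ^ 2 * (N h4 : ℝ) ^ 3 ≤ H ∧
              N h1 ≤ N h2 then ‖∑ k ∈ SF K, c k * χ k (qmap (t, h1, h2, h4))‖ ^ 2 else 0)
              = 0 := by
          intro h2 _
          rw [if_neg]
          rintro ⟨q1, q2⟩
          apply hcond
          refine le_trans ?_ q1
          have q2' : (N h1 : ℝ) ≤ N h2 := by exact_mod_cast q2
          calc ((N h1 : ℝ) * (N h4 : ℝ)) ^ 3 = (N h1 : ℝ) * (N h1 : ℝ) ^ 2 * (N h4 : ℝ) ^ 3 := by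
                ring
            _ ≤ _ := by gcongr
        rw [sum_congr rfl this, sum_const_zero]
        positivity
    refine (sum_le_sum e1).trans ?_
    clear_value S
    have e2 : ∑ h2 ∈ SF H, ∑ h4 ∈ Hn H, (W * ((N h2 : ℝ)⁻¹ * (N h4 : ℝ)⁻¹)) * S =
        (W * ((∑ h ∈ SF H, (N h : ℝ)⁻¹) * ∑ h ∈ Hn H, (N h : ℝ)⁻¹)) * S := by
      rw [sum_mul_sum, mul_sum, sum_mul]
      refine sum_congr rfl fun h2 _ => ?_
      rw [mul_sum, sum_mul]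
    rw [e2]
    gcongr
    exact SF_subset_Hn H
  refine (sum_le_sum key).trans ?_
  rw [sum_const, nsmul_eq_mul]
  apply le_of_eq; ring

/-- the shape of the squarefree bound -/
noncomputable def U (j : ℕ) (K Y : ℝ) : ℝ :=
  K + Y + (K * Y) ^ (2 / 3 : ℝ) + Y * K * (Y / K) ^ j

/-- the shape of the full bound -/
noncomputable def V (j : ℕ) (K H : ℝ) : ℝ :=
  H + K * H ^ (1 / 3 : ℝ) + (K * H) ^ (2 / 3 : ℝ) + H * K * (H / K) ^ j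

theorem U_nonneg {j : ℕ} {K Y : ℝ} (hK : 0 ≤ K) (hY : 0 ≤ Y) : 0 ≤ U j K Y := by
  unfold U; positivity

theorem V_nonneg {j : ℕ} {K H : ℝ} (hK : 0 ≤ K) (hH : 0 ≤ H) : 0 ≤ V j K H := by
  unfold V; positivity

theorem rpow_third_pow {x : ℝ} (hx : 0 ≤ x) : (x ^ 3) ^ (1 / 3 : ℝ) = x := by
  rw [← Real.rpow_natCast, ← Real.rpow_mul hx]; norm_num

theorem rpow_two_thirds {x : ℝ} (hx : 0 ≤ x) : x ^ (2 / 3 : ℝ) = (x ^ (1 / 3 : ℝ)) ^ 2 := by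
  rw [← Real.rpow_natCast, ← Real.rpow_mul hx]; norm_num

/-- the common form: `Y ≤ H/(ab)`, `ab ≤ H^{1/3}`, `Y^{2/3} ab ≤ H^{2/3}` imply the bound -/
theorem U_le_V {j : ℕ} {K H Y a b : ℝ} (hK : 1 ≤ K) (hH : 1 ≤ H) (hY : 1 ≤ Y) (ha : 1 ≤ a)
    (hb : 1 ≤ b) (h1 : Y * (a * b) ≤ H) (h2 : a * b ≤ H ^ (1 / 3 : ℝ))
    (h3 : Y ^ (2 / 3 : ℝ) * (a * b) ≤ H ^ (2 / 3 : ℝ)) :
    U j K Y ≤ V j K H * (a⁻¹ * b⁻¹) := by
  have hab : 0 < a * b := by positivity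
  have hab1 : 1 ≤ a * b := by nlinarith
  have e : a⁻¹ * b⁻¹ = (a * b)⁻¹ := by rw [mul_inv]
  rw [e, ← div_eq_mul_inv, le_div_iff₀ hab, U, V]
  have t1 : K * (a * b) ≤ K * H ^ (1 / 3 : ℝ) := by gcongr
  have t2 : (K * Y) ^ (2 / 3 : ℝ) * (a * b) ≤ (K * H) ^ (2 / 3 : ℝ) := by
    rw [Real.mul_rpow (by linarith) (by linarith), Real.mul_rpow (by linarith) (by linarith),
      mul_assoc]
    gcongr
  have hYH : Y ≤ H := le_trans (le_mul_of_one_le_right (by linarith) hab1) h1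
  have t3 : Y * K * (Y / K) ^ j * (a * b) ≤ H * K * (H / K) ^ j := by
    calc Y * K * (Y / K) ^ j * (a * b) = (Y * (a * b)) * K * (Y / K) ^ j := by ring
      _ ≤ H * K * (H / K) ^ j := by gcongr
  nlinarith

theorem ineqA {j : ℕ} {K H a b : ℝ} (hK : 1 ≤ K) (hH : 1 ≤ H) (ha : 1 ≤ a)
    (hb : 1 ≤ b) (h : (a * b) ^ 3 ≤ H) :
    U j K (H / (a ^ 2 * b ^ 3)) ≤ V j K H * (a⁻¹ * b⁻¹) := by
  have hpos : 0 < a ^ 2 * b ^ 3 := by positivity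
  have hab1 : 1 ≤ a * b := by nlinarith
  have h2 : a * b ≤ H ^ (1 / 3 : ℝ) := by
    rw [← rpow_third_pow (show 0 ≤ a * b by positivity)]
    gcongr
  have hle : a ^ 2 * b ^ 3 ≤ (a * b) ^ 3 := by
    rw [mul_pow]; gcongr; · norm_num
  have hge : a * b ≤ a ^ 2 * b ^ 3 := by
    have : a * b * 1 ≤ a * b * (a * b ^ 2) := by
      gcongr; nlinarith [one_le_pow₀ hb (n := 2)]
    nlinarith
  apply U_le_V hK hH _ ha hb _ h2
  · rw [Real.div_rpow (by linarith) hpos.le, div_mul_eq_mul_div, div_le_iff₀ (by positivity)]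
    have : a * b ≤ (a ^ 2 * b ^ 3) ^ (2 / 3 : ℝ) := by
      calc a * b = ((a * b) ^ 3) ^ (1 / 3 : ℝ) := (rpow_third_pow (by positivity)).symm
        _ ≤ ((a ^ 2 * b ^ 3) ^ 2) ^ (1 / 3 : ℝ) := by
            gcongr
            calc (a * b) ^ 3 = a ^ 3 * b ^ 3 := by ring
              _ ≤ a ^ 4 * b ^ 6 := by gcongr <;> first | assumption | norm_num
              _ = _ := by ring
        _ = (a ^ 2 * b ^ 3) ^ (2 / 3 : ℝ) := by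
            rw [← Real.rpow_natCast, ← Real.rpow_mul hpos.le]; norm_num
    gcongr
  · rw [le_div_iff₀ hpos]; linarith
  · rw [div_mul_eq_mul_div, div_le_iff₀ hpos]
    gcongr

theorem ineqB {j : ℕ} {K H a b : ℝ} (hK : 1 ≤ K) (hH : 1 ≤ H) (ha : 1 ≤ a)
    (hb : 1 ≤ b) (h : (a * b) ^ 3 ≤ H) :
    U j K (Real.sqrt (H / (a * b ^ 3))) ≤ V j K H * (a⁻¹ * b⁻¹) := by
  have hpos : 0 < a * b ^ 3 := by positivity
  have hab1 : 1 ≤ a * b := by nlinarith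
  have h2 : a * b ≤ H ^ (1 / 3 : ℝ) := by
    rw [← rpow_third_pow (show 0 ≤ a * b by positivity)]
    gcongr
  have hle : a * b ^ 3 ≤ (a * b) ^ 3 := by
    rw [mul_pow]; gcongr; nlinarith [sq_nonneg a, one_le_pow₀ ha (n := 2)]
  have hge : a * b ≤ a * b ^ 3 := by
    gcongr; nlinarith [sq_nonneg b, one_le_pow₀ hb (n := 2)]
  have hge1 : 1 ≤ a * b ^ 3 := hab1.trans hge
  have hY1 : 1 ≤ H / (a * b ^ 3) := by rw [le_div_iff₀ hpos]; linarith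
  have hs1 : 1 ≤ Real.sqrt (H / (a * b ^ 3)) := by rwa [Real.one_le_sqrt]
  have hs2 : Real.sqrt (H / (a * b ^ 3)) ≤ H / (a * b ^ 3) := by
    have := Real.mul_self_sqrt (show 0 ≤ H / (a * b ^ 3) by positivity)
    nlinarith
  have hs3 : Real.sqrt (H / (a * b ^ 3)) ≤ H ^ (1 / 2 : ℝ) := by
    rw [← Real.sqrt_eq_rpow]
    apply Real.sqrt_le_sqrt
    rw [div_le_iff₀ hpos]
    nlinarith
  apply U_le_V hK hH hs1 ha hb _ h2
  · calc Real.sqrt (H / (a * b ^ 3)) ^ (2 / 3 : ℝ) * (a * b)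
        ≤ (H ^ (1 / 2 : ℝ)) ^ (2 / 3 : ℝ) * H ^ (1 / 3 : ℝ) := by gcongr
      _ = H ^ (2 / 3 : ℝ) := by
          rw [← Real.rpow_mul (by linarith), ← Real.rpow_add (by linarith)]; norm_num
  · calc Real.sqrt (H / (a * b ^ 3)) * (a * b) ≤ (H / (a * b ^ 3)) * (a * b ^ 3) := by gcongr
      _ = H := by field_simp

/-- (LS2): the squarefree bound for all lengths implies the bound for all `h` -/
theorem LSF_of_LS (hχ : CSym χ) (j : ℕ)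
    (hLS : ∀ ε : ℝ, 0 < ε → ∃ C : ℝ, 0 < C ∧ ∀ K Y : ℝ, 1 ≤ K → 1 ≤ Y →
      LS χ K Y (C * (K * Y) ^ ε * U j K Y)) :
    ∀ ε : ℝ, 0 < ε → ∃ C : ℝ, 0 < C ∧ ∀ K H : ℝ, 1 ≤ K → 1 ≤ H →
      LSF χ K H (C * (K * H) ^ ε * V j K H) := by
  intro ε hε
  have hε3 : 0 < ε / 3 := by linarith
  obtain ⟨C1, hC1, h1⟩ := hLS (ε / 3) hε3
  obtain ⟨C2, hC2, h2⟩ := sum_inv_N_le hε3
  refine ⟨2 * ((Hn 9).card + 1) * C1 * (C2 * C2), by positivity, fun K H hK hH c => ?_⟩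
  set B : ℝ → ℝ := fun Y => C1 * (K * Y) ^ (ε / 3) * U j K Y with hBdef
  have hB0 : ∀ Y, 1 ≤ Y → 0 ≤ B Y := fun Y hY => by
    have := U_nonneg (j := j) (K := K) (Y := Y) (by linarith) (by linarith)
    rw [hBdef]; positivity
  set W : ℝ := C1 * (K * H) ^ (ε / 3) * V j K H with hW
  have hV0 := V_nonneg (j := j) (K := K) (H := H) (by linarith) (by linarith)
  have hW0 : 0 ≤ W := by rw [hW]; positivity
  have hBW : ∀ Y a b : ℝ, 0 ≤ Y → Y ≤ H → 1 ≤ a → 1 ≤ b →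
      U j K Y ≤ V j K H * (a⁻¹ * b⁻¹) → B Y ≤ W * (a⁻¹ * b⁻¹) := by
    intro Y a b hY hYH ha hb h
    calc B Y ≤ C1 * (K * H) ^ (ε / 3) * (V j K H * (a⁻¹ * b⁻¹)) := by
          have := U_nonneg (j := j) (K := K) (Y := Y) (by linarith) hY
          rw [hBdef]; simp only; gcongr
      _ = W * (a⁻¹ * b⁻¹) := by rw [hW]; ring
  have hA := sum_QA_le hχ B hB0 (fun Y hY => h1 K Y hK hY) c W hW0 (by
    intro a b ha hb hab
    have hpos : 0 < a ^ 2 * b ^ 3 := by positivity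
    apply hBW _ _ _ (by positivity) _ ha hb (ineqA hK hH ha hb hab)
    rw [div_le_iff₀ hpos]
    have : 1 ≤ a ^ 2 * b ^ 3 := one_le_mul_of_one_le_of_one_le (one_le_pow₀ ha) (one_le_pow₀ hb)
    nlinarith)
  have hBb := sum_QB_le hχ B hB0 (fun Y hY => h1 K Y hK hY) c W hW0 (by
    intro a b ha hb hab
    have hpos : 0 < a * b ^ 3 := by positivity
    have h1' : 1 ≤ a * b ^ 3 := one_le_mul_of_one_le_of_one_le ha (one_le_pow₀ hb)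
    apply hBW _ _ _ (by positivity) _ ha hb (ineqB hK hH ha hb hab)
    rw [Real.sqrt_le_left (by linarith), div_le_iff₀ hpos]
    nlinarith)
  have hsum := sum_Hn_le H (fun h => ‖∑ k ∈ SF K, c k * χ k h‖ ^ 2) (fun h => by positivity)
  have hS0 : 0 ≤ ∑ k ∈ SF K, ‖c k‖ ^ 2 := by positivity
  have hI0 : 0 ≤ ∑ h ∈ Hn H, (N h : ℝ)⁻¹ := by positivity
  have hI : (∑ h ∈ Hn H, (N h : ℝ)⁻¹) ≤ C2 * H ^ (ε / 3) := h2 H (by linarith)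
  have hKH : H ^ (ε / 3) ≤ (K * H) ^ (ε / 3) := by
    gcongr; nlinarith
  calc ∑ h ∈ Hn H, ‖∑ k ∈ SF K, c k * χ k h‖ ^ 2
      ≤ 2 * ((Hn 9).card * (W * ((∑ h ∈ Hn H, (N h : ℝ)⁻¹) * ∑ h ∈ Hn H, (N h : ℝ)⁻¹)) *
        ∑ k ∈ SF K, ‖c k‖ ^ 2) := by linarith
    _ ≤ 2 * (((Hn 9).card + 1) * (W * ((C2 * (K * H) ^ (ε / 3)) * (C2 * (K * H) ^ (ε / 3)))) *
        ∑ k ∈ SF K, ‖c k‖ ^ 2) := by
        have : (∑ h ∈ Hn H, (N h : ℝ)⁻¹) ≤ C2 * (K * H) ^ (ε / 3) :=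
          hI.trans (by gcongr)
        gcongr
        linarith
    _ = 2 * ((Hn 9).card + 1) * C1 * (C2 * C2) * (K * H) ^ ε * V j K H *
        ∑ k ∈ SF K, ‖c k‖ ^ 2 := by
        have e : (K * H) ^ ε = (K * H) ^ (ε / 3) * (K * H) ^ (ε / 3) * (K * H) ^ (ε / 3) := by
          rw [← Real.rpow_add (by positivity), ← Real.rpow_add (by positivity)]
          congr 1; ring
        rw [hW, e]; ring

end Vale.Agent.P006.HB
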