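import Vale.Agent.P006.H357.Step

/-!
P006, block HB: Heath-Brown's cubic large sieve, from the Poisson inequality (P*).
-/

namespace Vale.Agent.P006.HB

open Vale.Agent.P006 Finset

variable {χ : O → O → ℂ}

/-- the number of dyadic classes is `≪ K^ε` -/
theorem log_count {ε : ℝ} (hε : 0 < ε) :
    ∃ C : ℝ, 0 < C ∧ ∀ K : ℝ, 1 ≤ K → ((Nat.log 2 ⌊K⌋₊ + 1 : ℕ) : ℝ) ≤ C * K ^ ε := by
  have hl2 : 0 < Real.log 2 := Real.log_pos (by norm_num)
  refine ⟨1 + 1 / (ε * Real.log 2), by positivity, fun K hK => ?_⟩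
  have hf : 1 ≤ ⌊K⌋₊ := (Nat.one_le_floor_iff K).2 hK
  have h1 : (2 : ℝ) ^ (Nat.log 2 ⌊K⌋₊) ≤ K := by
    have h2 : 2 ^ (Nat.log 2 ⌊K⌋₊) ≤ ⌊K⌋₊ := Nat.pow_log_le_self 2 (by omega)
    calc (2 : ℝ) ^ (Nat.log 2 ⌊K⌋₊) = ((2 ^ (Nat.log 2 ⌊K⌋₊) : ℕ) : ℝ) := by push_cast; rfl
      _ ≤ ((⌊K⌋₊ : ℕ) : ℝ) := by exact_mod_cast h2
      _ ≤ K := Nat.floor_le (by linarith)
  have h3 : (Nat.log 2 ⌊K⌋₊ : ℝ) * Real.log 2 ≤ Real.log K := by
    rw [← Real.log_pow]
    exact Real.log_le_log (by positivity) h1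
  have h4 : Real.log K ≤ K ^ ε / ε := Real.log_le_rpow_div (by linarith) hε
  have h5 : (1 : ℝ) ≤ K ^ ε := Real.one_le_rpow hK hε.le
  push_cast
  have h6 : (Nat.log 2 ⌊K⌋₊ : ℝ) ≤ 1 / (ε * Real.log 2) * K ^ ε := by
    rw [← le_div_iff₀ hl2] at h3
    refine h3.trans ?_
    rw [div_le_iff₀ hl2]
    refine h4.trans (le_of_eq ?_)
    field_simp
  linarith

/-- full step: from dyadic to all `k` -/
theorem full_step (hP : PStar χ) (j : ℕ)
    (hF : ∀ ε : ℝ, 0 < ε → ∃ C : ℝ, 0 < C ∧ ∀ K H : ℝ, 1 ≤ K → 1 ≤ H →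
      LSF χ K H (C * (K * H) ^ ε * V j K H)) :
    ∀ ε : ℝ, 0 < ε → ∃ C : ℝ, 0 < C ∧ ∀ K M : ℝ, 1 ≤ K → 1 ≤ M →
      LS χ K M (C * (K * M) ^ ε * W j K M) := by
  classical
  intro ε hε
  have hε2 : 0 < ε / 2 := by linarith
  obtain ⟨C1, hC1, h1⟩ := dyadic_step hP j hF (ε / 2) hε2
  obtain ⟨C2, hC2, h2⟩ := log_count hε2
  refine ⟨C1 * C2, by positivity, fun K M hK hM c => ?_⟩
  set I := Nat.log 2 ⌊K⌋₊ + 1 with hI
  set cls : O → ℕ := fun k => Nat.log 2 ⌊K / N k⌋₊ with hcls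
  set ci : ℕ → O → ℂ := fun i k => if k ∈ SF K ∧ cls k = i then c k else 0 with hci
  have hf : 1 ≤ ⌊K⌋₊ := (Nat.one_le_floor_iff K).2 hK
  have hclsI : ∀ k ∈ SF K, cls k < I := by
    intro k hk
    rw [mem_SF] at hk
    have hN : (1 : ℝ) ≤ N k := by exact_mod_cast hk.2.1.N_pos
    rw [hcls, hI]
    simp only
    have : Nat.log 2 ⌊K / N k⌋₊ ≤ Nat.log 2 ⌊K⌋₊ := by
      apply Nat.log_mono_right
      apply Nat.floor_mono
      exact div_le_self (by linarith) hN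
    omega
  have hsum : ∀ f : O → ℂ, ∑ k ∈ SF K, c k * f k =
      ∑ i ∈ range I, ∑ k ∈ SF K, ci i k * f k := by
    intro f
    rw [sum_comm]
    refine sum_congr rfl fun k hk => ?_
    rw [← sum_mul]
    congr 1
    rw [hci]
    simp only [hk, true_and]
    rw [sum_ite_eq, if_pos]
    rw [mem_range]; exact hclsI k hk
  have hsq : ∑ i ∈ range I, ∑ k ∈ SF K, ‖ci i k‖ ^ 2 = ∑ k ∈ SF K, ‖c k‖ ^ 2 := by
    rw [sum_comm]
    refine sum_congr rfl fun k hk => ?_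
    rw [hci]
    simp only [hk, true_and]
    have : ∀ i ∈ range I, ‖(if cls k = i then c k else 0 : ℂ)‖ ^ 2 =
        if cls k = i then ‖c k‖ ^ 2 else 0 := by
      intro i _; split_ifs <;> simp
    rw [sum_congr rfl this, sum_ite_eq, if_pos]
    rw [mem_range]; exact hclsI k hk
  -- each class
  have hi : ∀ i ∈ range I, ∑ n ∈ SF M, ‖∑ k ∈ SF K, ci i k * χ k n‖ ^ 2 ≤
      C1 * (K * M) ^ (ε / 2) * W j K M * ∑ k ∈ SF K, ‖ci i k‖ ^ 2 := by
    intro i hiI
    rw [mem_range, hI] at hiI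
    have hp : (2 : ℝ) ^ i ≤ K := by
      have h3 : 2 ^ i ≤ ⌊K⌋₊ := by
        refine le_trans ?_ (Nat.pow_log_le_self 2 (x := ⌊K⌋₊) (by omega))
        exact Nat.pow_le_pow_right (by norm_num) (by omega)
      calc (2 : ℝ) ^ i = ((2 ^ i : ℕ) : ℝ) := by push_cast; rfl
        _ ≤ ((⌊K⌋₊ : ℕ) : ℝ) := by exact_mod_cast h3
        _ ≤ K := Nat.floor_le (by linarith)
    set Ki := K / 2 ^ i with hKi
    have hKi1 : 1 ≤ Ki := by rw [hKi, le_div_iff₀ (by positivity), one_mul]; exact hp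
    have hKiK : Ki ≤ K := div_le_self (by linarith) (one_le_pow₀ (by norm_num))
    have hcl : ∀ k, ci i k ≠ 0 → k ∈ SF Ki ∧ Ki / 2 < (N k : ℝ) := by
      intro k hk
      have hcond : k ∈ SF K ∧ cls k = i := by
        by_contra hn
        exact hk (by rw [hci]; simp only [hn, if_false])
      obtain ⟨hkS, hki⟩ := hcond
      rw [mem_SF] at hkS
      have hN : (0 : ℝ) < N k := by exact_mod_cast hkS.2.1.N_pos
      have hq1 : 1 ≤ K / N k := by rw [le_div_iff₀ hN, one_mul]; exact hkS.1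
      have hfl : 1 ≤ ⌊K / N k⌋₊ := (Nat.one_le_floor_iff _).2 hq1
      have g1 : (2 : ℝ) ^ i ≤ K / N k := by
        have h3 : 2 ^ i ≤ ⌊K / N k⌋₊ := by
          rw [← hki]; exact Nat.pow_log_le_self 2 (by omega)
        calc (2 : ℝ) ^ i = ((2 ^ i : ℕ) : ℝ) := by push_cast; rfl
          _ ≤ ((⌊K / N k⌋₊ : ℕ) : ℝ) := by exact_mod_cast h3
          _ ≤ K / N k := Nat.floor_le (by positivity)
      have g2 : K / N k < (2 : ℝ) ^ (i + 1) := by
        have h3 : ⌊K / N k⌋₊ < 2 ^ (i + 1) := by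
          rw [← hki]; exact Nat.lt_pow_succ_log_self (by norm_num) _
        have h4 : K / N k < (⌊K / N k⌋₊ : ℝ) + 1 := Nat.lt_floor_add_one _
        have h5 : (⌊K / N k⌋₊ : ℝ) + 1 ≤ 2 ^ (i + 1) := by exact_mod_cast h3
        linarith
      rw [le_div_iff₀ hN] at g1
      rw [div_lt_iff₀ hN] at g2
      refine ⟨?_, ?_⟩
      · rw [mem_SF]
        refine ⟨?_, hkS.2⟩
        rw [hKi, le_div_iff₀ (by positivity)]; linarith
      · rw [hKi, div_div, div_lt_iff₀ (by positivity)]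
        rw [pow_succ] at g2; linarith
    have h3 := h1 Ki M hKi1 hM (ci i) hcl
    have hsub : SF Ki ⊆ SF K := SF_mono hKiK
    have hzero : ∀ k ∈ SF K, k ∉ SF Ki → ci i k = 0 := by
      intro k _ hk
      by_contra hne
      exact hk (hcl k hne).1
    have e1 : ∀ n ∈ SF M, ‖∑ k ∈ SF K, ci i k * χ k n‖ ^ 2 =
        ‖∑ k ∈ SF Ki, ci i k * χ k n‖ ^ 2 := by
      intro n _
      congr 2
      symm
      apply sum_subset hsub
      intro k hk hk'
      rw [hzero k hk hk', zero_mul]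
    have e2 : ∑ k ∈ SF Ki, ‖ci i k‖ ^ 2 = ∑ k ∈ SF K, ‖ci i k‖ ^ 2 := by
      apply sum_subset hsub
      intro k hk hk'
      rw [hzero k hk hk']; simp
    rw [sum_congr rfl e1, ← e2]
    refine h3.trans ?_
    have hWm : W j Ki M ≤ W j K M := W_mono (by linarith) (by linarith) hKiK
    have hW0 : 0 ≤ W j Ki M := W_nonneg (by linarith) (by linarith)
    gcongr
  have hS0 : 0 ≤ ∑ k ∈ SF K, ‖c k‖ ^ 2 := by positivity
  have hW0 : 0 ≤ W j K M := W_nonneg (by linarith) (by linarith)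
  calc ∑ n ∈ SF M, ‖∑ k ∈ SF K, c k * χ k n‖ ^ 2
      = ∑ n ∈ SF M, ‖∑ i ∈ range I, ∑ k ∈ SF K, ci i k * χ k n‖ ^ 2 := by
        refine sum_congr rfl fun n _ => ?_
        rw [hsum]
    _ ≤ ∑ n ∈ SF M, (I : ℝ) * ∑ i ∈ range I, ‖∑ k ∈ SF K, ci i k * χ k n‖ ^ 2 := by
        refine sum_le_sum fun n _ => ?_
        have h4 := norm_sum_mul_sq_le (range I) (fun _ => (1 : ℂ))
          (fun i => ∑ k ∈ SF K, ci i k * χ k n)
        simpa using h4
    _ = (I : ℝ) * ∑ i ∈ range I, ∑ n ∈ SF M, ‖∑ k ∈ SF K, ci i k * χ k n‖ ^ 2 := by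
        rw [← mul_sum, sum_comm]
    _ ≤ (I : ℝ) * ∑ i ∈ range I, C1 * (K * M) ^ (ε / 2) * W j K M *
          ∑ k ∈ SF K, ‖ci i k‖ ^ 2 := by
        gcongr with i hiI
        exact hi i hiI
    _ = (I : ℝ) * (C1 * (K * M) ^ (ε / 2) * W j K M) * ∑ k ∈ SF K, ‖c k‖ ^ 2 := by
        rw [← mul_sum, hsq]; ring
    _ ≤ (C2 * (K * M) ^ (ε / 2)) * (C1 * (K * M) ^ (ε / 2) * W j K M) *
          ∑ k ∈ SF K, ‖c k‖ ^ 2 := by
        have h5 := h2 K hK
        have h6 : K ^ (ε / 2) ≤ (K * M) ^ (ε / 2) := by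
          gcongr; nlinarith
        gcongr
        exact h5.trans (by gcongr)
    _ = C1 * C2 * (K * M) ^ ε * W j K M * ∑ k ∈ SF K, ‖c k‖ ^ 2 := by
        have e : (K * M) ^ ε = (K * M) ^ (ε / 2) * (K * M) ^ (ε / 2) := by
          rw [← Real.rpow_add (by positivity)]; congr 1; ring
        rw [e]; ring

theorem W_le_U {j : ℕ} {K M : ℝ} (hK : 1 ≤ K) (hM : 1 ≤ M) : W j K M ≤ 2 * U (j + 1) M K := by
  have hK0 : 0 < K := by linarith
  have hM0 : 0 < M := by linarith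
  have e1 : K * M * (K / M) ^ (j + 1) = K ^ 2 * (K / M) ^ j := by
    rw [pow_succ]; field_simp
  have h1 : K * M ^ (1 / 3 : ℝ) ≤ (K * M) ^ (2 / 3 : ℝ) + K ^ 2 * (K / M) ^ j := by
    rcases le_total K M with h | h
    · have h2 : K * M ^ (1 / 3 : ℝ) ≤ (K * M) ^ (2 / 3 : ℝ) := by
        rw [Real.mul_rpow hK0.le hM0.le]
        calc K * M ^ (1 / 3 : ℝ) = K ^ (2 / 3 : ℝ) * K ^ (1 / 3 : ℝ) * M ^ (1 / 3 : ℝ) := by
              rw [← Real.rpow_add hK0]; norm_num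
          _ ≤ K ^ (2 / 3 : ℝ) * M ^ (1 / 3 : ℝ) * M ^ (1 / 3 : ℝ) := by gcongr
          _ = K ^ (2 / 3 : ℝ) * M ^ (2 / 3 : ℝ) := by
              rw [mul_assoc, ← Real.rpow_add hM0]; norm_num
      have : 0 ≤ K ^ 2 * (K / M) ^ j := by positivity
      linarith
    · have h2 : (1 : ℝ) ≤ (K / M) ^ j := one_le_pow₀ (by rw [le_div_iff₀ hM0]; linarith)
      have h3 : M ^ (1 / 3 : ℝ) ≤ K := by
        calc M ^ (1 / 3 : ℝ) ≤ M ^ (1 : ℝ) := Real.rpow_le_rpow_of_exponent_le hM (by norm_num)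
          _ = M := Real.rpow_one _
          _ ≤ K := h
      have h4 : K * M ^ (1 / 3 : ℝ) ≤ K ^ 2 * 1 := by nlinarith
      have h5 : K ^ 2 * 1 ≤ K ^ 2 * (K / M) ^ j := by gcongr
      have : 0 ≤ (K * M) ^ (2 / 3 : ℝ) := by positivity
      linarith
  unfold W U
  rw [e1]
  have e2 : (M * K) ^ (2 / 3 : ℝ) = (K * M) ^ (2 / 3 : ℝ) := by rw [mul_comm]
  rw [e2]
  have a1 : 0 ≤ (K * M) ^ (2 / 3 : ℝ) := by positivity
  have a3 : 0 ≤ K ^ 2 * (K / M) ^ j := by positivity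
  linarith

/-- the recursion: the bound with error term `YK (Y/K)^j`, every `j` -/
theorem LS_rec (hχ : CSym χ) (hP : PStar χ) (j : ℕ) :
    ∀ ε : ℝ, 0 < ε → ∃ C : ℝ, 0 < C ∧ ∀ K Y : ℝ, 1 ≤ K → 1 ≤ Y →
      LS χ K Y (C * (K * Y) ^ ε * U j K Y) := by
  induction j with
  | zero =>
    intro ε hε
    obtain ⟨C, hC, h⟩ := LS_trivial hχ hε
    refine ⟨C, hC, fun K Y hK hY => (h K Y hK hY).mono ?_⟩
    have h1 : K * Y ≤ U 0 K Y := by
      unfold U
      have : 0 ≤ (K * Y) ^ (2 / 3 : ℝ) := by positivity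
      rw [pow_zero, mul_one]
      nlinarith
    gcongr
  | succ j ih =>
    intro ε hε
    obtain ⟨C, hC, h⟩ := full_step hP j (LSF_of_LS hχ j ih) ε hε
    refine ⟨C * 2, by positivity, fun K Y hK hY => ?_⟩
    have h1 := (h Y K hY hK).mono
      (show C * (Y * K) ^ ε * W j Y K ≤ C * 2 * (K * Y) ^ ε * U (j + 1) K Y by
        have h2 := W_le_U (j := j) hY hK
        rw [mul_comm Y K]
        calc C * (K * Y) ^ ε * W j Y K ≤ C * (K * Y) ^ ε * (2 * U (j + 1) K Y) := by gcongr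
          _ = _ := by ring)
    have h3 : 0 ≤ U (j + 1) K Y := U_nonneg (by linarith) (by linarith)
    exact h1.symm hχ (by positivity)

/-- **Heath-Brown's cubic large sieve** (all lengths). -/
theorem cubic_large_sieve (hχ : CSym χ) (hP : PStar χ) :
    ∀ ε : ℝ, 0 < ε → ∃ C : ℝ, 0 < C ∧ ∀ K M : ℝ, 1 ≤ K → 1 ≤ M →
      LS χ K M (C * (K * M) ^ ε * (K + M + (K * M) ^ (2 / 3 : ℝ))) := by
  intro ε hε
  -- δ small
  set δ := min (ε / 4) 1 with hδ
  have hδ0 : 0 < δ := lt_min (by linarith) one_pos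
  have hδ1 : δ ≤ 1 := min_le_right _ _
  have hδε : 4 * δ ≤ ε := by
    have : δ ≤ ε / 4 := min_le_left _ _
    linarith
  obtain ⟨j, hj⟩ := exists_nat_ge (1 / δ)
  have hjδ : 1 ≤ δ * j := by
    rw [div_le_iff₀ hδ0] at hj; linarith
  set ε' := ε / 4 with hε'
  have hε'0 : 0 < ε' := by positivity
  obtain ⟨C, hC, h⟩ := LS_rec hχ hP j ε' hε'0
  -- first the case `Y ≤ K`, `LS χ K Y`, i.e. inner `K` long
  have key : ∀ K Y : ℝ, 1 ≤ K → 1 ≤ Y → Y ≤ K →
      LS χ K Y (C * 8 * (K * Y) ^ ε * (K + Y + (K * Y) ^ (2 / 3 : ℝ))) := by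
    intro K Y hK hY hYK
    have hKY : 1 ≤ K * Y := one_le_mul_of_one_le_of_one_le hK hY
    have hpos : 0 ≤ K + Y + (K * Y) ^ (2 / 3 : ℝ) := by positivity
    rcases le_total (Y ^ (1 + δ)) K with hcase | hcase
    · -- `K ≥ Y^{1+δ}`
      refine (h K Y hK hY).mono ?_
      have hU : U j K Y ≤ 2 * (K + Y + (K * Y) ^ (2 / 3 : ℝ)) := by
        unfold U
        have h1 : Y * K * (Y / K) ^ j ≤ K := by
          have h2 : Y / K ≤ Y ^ (-δ) := by
            rw [div_le_iff₀ (by linarith)]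
            calc Y = Y ^ (-δ) * Y ^ (1 + δ) := by
                  rw [← Real.rpow_add (by linarith)]; simp
              _ ≤ Y ^ (-δ) * K := by gcongr
          calc Y * K * (Y / K) ^ j ≤ Y * K * (Y ^ (-δ)) ^ j := by
                have : 0 ≤ Y / K := by positivity
                gcongr
            _ = K * (Y ^ (1 - δ * j)) := by
                rw [← Real.rpow_natCast, ← Real.rpow_mul (by linarith), sub_eq_add_neg,
                  Real.rpow_add (by linarith), Real.rpow_one, neg_mul]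
                ring
            _ ≤ K * 1 := by
                gcongr
                exact Real.rpow_le_one_of_one_le_of_nonpos hY (by linarith)
            _ = K := mul_one K
        have a1 : 0 ≤ (K * Y) ^ (2 / 3 : ℝ) := by positivity
        linarith
      calc C * (K * Y) ^ ε' * U j K Y ≤ C * (K * Y) ^ ε *
            (2 * (K + Y + (K * Y) ^ (2 / 3 : ℝ))) := by
            have hU0 : 0 ≤ U j K Y := U_nonneg (by linarith) (by linarith)
            have he : (K * Y) ^ ε' ≤ (K * Y) ^ ε :=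
              Real.rpow_le_rpow_of_exponent_le hKY (by rw [hε']; linarith)
            gcongr
        _ ≤ C * (K * Y) ^ ε * (8 * (K + Y + (K * Y) ^ (2 / 3 : ℝ))) := by
            gcongr; norm_num
        _ = _ := by ring
    · -- `Y ≤ K ≤ Y^{1+δ}`: enlarge the inner length to `Y^{1+δ}`
      set K1 := Y ^ (1 + δ) with hK1
      have hK11 : 1 ≤ K1 := Real.one_le_rpow hY (by linarith)
      have h0 := ((h K1 Y hK11 hY).mono_inner hcase)
      refine h0.mono ?_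
      have hY0 : 0 < Y := by linarith
      have hU : U j K1 Y ≤ 4 * Y ^ (4 / 3 + 2 / 3 * δ) := by
        unfold U
        have h2 : Y / K1 = Y ^ (-δ) := by
          rw [hK1, div_eq_iff (by positivity), ← Real.rpow_add hY0]; simp
        have h1 : Y * K1 * (Y / K1) ^ j ≤ K1 := by
          rw [h2]
          calc Y * K1 * (Y ^ (-δ)) ^ j = K1 * (Y ^ (1 - δ * j)) := by
                rw [← Real.rpow_natCast, ← Real.rpow_mul (by linarith), sub_eq_add_neg,
                  Real.rpow_add hY0, Real.rpow_one, neg_mul]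
                ring
            _ ≤ K1 * 1 := by
                gcongr
                exact Real.rpow_le_one_of_one_le_of_nonpos hY (by linarith)
            _ = K1 := mul_one _
        have h3 : K1 ≤ Y ^ (4 / 3 + 2 / 3 * δ) := by
          rw [hK1]
          apply Real.rpow_le_rpow_of_exponent_le hY
          linarith
        have h4 : Y ≤ Y ^ (4 / 3 + 2 / 3 * δ) := by
          calc Y = Y ^ (1 : ℝ) := (Real.rpow_one _).symm
            _ ≤ _ := Real.rpow_le_rpow_of_exponent_le hY (by linarith)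
        have h5 : (K1 * Y) ^ (2 / 3 : ℝ) = Y ^ (4 / 3 + 2 / 3 * δ) := by
          have : K1 * Y = Y ^ (2 + δ) := by
            rw [hK1]
            calc Y ^ (1 + δ) * Y = Y ^ (1 + δ) * Y ^ (1 : ℝ) := by rw [Real.rpow_one]
              _ = Y ^ (2 + δ) := by rw [← Real.rpow_add hY0]; congr 1; ring
          rw [this, ← Real.rpow_mul hY0.le]; congr 1; ring
        rw [h5]; linarith
      have hYK2 : Y ^ (4 / 3 : ℝ) ≤ (K * Y) ^ (2 / 3 : ℝ) := by
        calc Y ^ (4 / 3 : ℝ) = (Y * Y) ^ (2 / 3 : ℝ) := by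
              rw [Real.mul_rpow hY0.le hY0.le, ← Real.rpow_add hY0]; norm_num
          _ ≤ (K * Y) ^ (2 / 3 : ℝ) := by gcongr
      have hYe : (Y : ℝ) ≤ K * Y := by nlinarith
      calc C * (K1 * Y) ^ ε' * U j K1 Y
          ≤ C * ((K * Y) ^ (2 : ℝ)) ^ ε' * (4 * Y ^ (4 / 3 + 2 / 3 * δ)) := by
            gcongr
            · exact U_nonneg (by linarith) (by linarith)
            · calc K1 * Y ≤ Y ^ (2 : ℝ) * Y := by
                    rw [hK1]
                    gcongr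
                    linarith
                _ ≤ (K * Y) ^ (2 : ℝ) := by
                    have e : ∀ x : ℝ, 0 ≤ x → x ^ (2 : ℝ) = x ^ 2 := fun x _ => by
                      rw [← Real.rpow_natCast]; norm_num
                    rw [e _ hY0.le, e _ (by positivity)]
                    have : Y ^ 2 * Y ≤ K ^ 2 * Y ^ 2 := by
                      have : Y ≤ K ^ 2 := by nlinarith
                      nlinarith [sq_nonneg Y]
                    calc Y ^ 2 * Y ≤ K ^ 2 * Y ^ 2 := this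
                      _ = (K * Y) ^ 2 := by ring
        _ = 4 * C * (K * Y) ^ (2 * ε') * (Y ^ (4 / 3 : ℝ) * Y ^ (2 / 3 * δ)) := by
            rw [← Real.rpow_mul (by positivity), ← Real.rpow_add hY0]; ring
        _ ≤ 4 * C * (K * Y) ^ (2 * ε') * ((K * Y) ^ (2 / 3 : ℝ) * (K * Y) ^ (2 / 3 * δ)) := by
            gcongr
        _ = 4 * C * ((K * Y) ^ (2 * ε') * (K * Y) ^ (2 / 3 * δ)) * (K * Y) ^ (2 / 3 : ℝ) := by
            ring
        _ ≤ 4 * C * (K * Y) ^ ε * (K * Y) ^ (2 / 3 : ℝ) := by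
            have : (K * Y) ^ (2 * ε') * (K * Y) ^ (2 / 3 * δ) ≤ (K * Y) ^ ε := by
              rw [← Real.rpow_add (by positivity)]
              apply Real.rpow_le_rpow_of_exponent_le hKY
              rw [hε']; linarith
            gcongr
        _ ≤ C * 8 * (K * Y) ^ ε * (K + Y + (K * Y) ^ (2 / 3 : ℝ)) := by
            have a1 : 0 ≤ (K * Y) ^ (2 / 3 : ℝ) := by positivity
            have a2 : 0 ≤ C * (K * Y) ^ ε := by positivity
            calc 4 * C * (K * Y) ^ ε * (K * Y) ^ (2 / 3 : ℝ)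
                = (C * (K * Y) ^ ε) * (4 * (K * Y) ^ (2 / 3 : ℝ)) := by ring
              _ ≤ (C * (K * Y) ^ ε) * (8 * (K + Y + (K * Y) ^ (2 / 3 : ℝ))) := by
                  gcongr
                  · norm_num
                  · linarith
              _ = _ := by ring
  refine ⟨C * 8, by positivity, fun K M hK hM => ?_⟩
  rcases le_total M K with h1 | h1
  · exact key K M hK hM h1
  · have h2 := (key M K hM hK h1).symm hχ (by positivity)
    rw [mul_comm M K, add_comm M K] at h2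
    exact h2

/-- the full form: all nonzero `h` -/
theorem cubic_large_sieve_full (hχ : CSym χ) (hP : PStar χ) :
    ∀ ε : ℝ, 0 < ε → ∃ C : ℝ, 0 < C ∧ ∀ K H : ℝ, 1 ≤ K → 1 ≤ H →
      LSF χ K H (C * (K * H) ^ ε * (H + K * H ^ (1 / 3 : ℝ) + (K * H) ^ (2 / 3 : ℝ))) := by
  intro ε hε
  have hε3 : 0 < ε / 3 := by linarith
  obtain ⟨C1, hC1, h1⟩ := cubic_large_sieve hχ hP (ε / 3) hε3
  obtain ⟨C2, hC2, h2⟩ := sum_inv_N_le hε3
  refine ⟨2 * ((Hn 9).card + 1) * C1 * (C2 * C2), by positivity, fun K H hK hH c => ?_⟩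
  set B : ℝ → ℝ := fun Y => C1 * (K * Y) ^ (ε / 3) * (K + Y + (K * Y) ^ (2 / 3 : ℝ)) with hBdef
  have hB0 : ∀ Y, 1 ≤ Y → 0 ≤ B Y := fun Y hY => by
    rw [hBdef]; positivity
  set V' := H + K * H ^ (1 / 3 : ℝ) + (K * H) ^ (2 / 3 : ℝ) with hV'
  have hV0 : 0 ≤ V' := by rw [hV']; positivity
  set W' : ℝ := C1 * (K * H) ^ (ε / 3) * V' with hW'
  have hW0 : 0 ≤ W' := by rw [hW']; positivity
  have hcore : ∀ Y a b : ℝ, 1 ≤ Y → Y ≤ H → 1 ≤ a → 1 ≤ b → Y * (a * b) ≤ H →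
      a * b ≤ H ^ (1 / 3 : ℝ) → Y ^ (2 / 3 : ℝ) * (a * b) ≤ H ^ (2 / 3 : ℝ) →
      B Y ≤ W' * (a⁻¹ * b⁻¹) := by
    intro Y a b hY hYH ha hb q1 q2 q3
    have hab : 0 < a * b := by positivity
    have e : a⁻¹ * b⁻¹ = (a * b)⁻¹ := by rw [mul_inv]
    have hmain : K + Y + (K * Y) ^ (2 / 3 : ℝ) ≤ V' * (a * b)⁻¹ := by
      rw [← div_eq_mul_inv, le_div_iff₀ hab, hV']
      have t1 : K * (a * b) ≤ K * H ^ (1 / 3 : ℝ) := by gcongr
      have t2 : (K * Y) ^ (2 / 3 : ℝ) * (a * b) ≤ (K * H) ^ (2 / 3 : ℝ) := by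
        rw [Real.mul_rpow (by linarith) (by linarith), Real.mul_rpow (by linarith) (by linarith),
          mul_assoc]
        gcongr
      nlinarith
    calc B Y ≤ C1 * (K * H) ^ (ε / 3) * (V' * (a⁻¹ * b⁻¹)) := by
          rw [hBdef, e]; simp only; gcongr
      _ = W' * (a⁻¹ * b⁻¹) := by rw [hW']; ring
  have hA := sum_QA_le hχ (H := H) B hB0 (fun Y hY => h1 K Y hK hY) c W' hW0 (by
    intro a b ha hb h
    have hpos : 0 < a ^ 2 * b ^ 3 := by positivity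
    have hab1 : 1 ≤ a * b := by nlinarith
    have q2 : a * b ≤ H ^ (1 / 3 : ℝ) := by
      rw [← rpow_third_pow (show 0 ≤ a * b by positivity)]
      gcongr
    have hle : a ^ 2 * b ^ 3 ≤ (a * b) ^ 3 := by
      rw [mul_pow]; gcongr; · norm_num
    have hge : a * b ≤ a ^ 2 * b ^ 3 := by
      have : a * b * 1 ≤ a * b * (a * b ^ 2) := by
        gcongr; nlinarith [one_le_pow₀ hb (n := 2)]
      nlinarith
    have hY1 : 1 ≤ H / (a ^ 2 * b ^ 3) := by rw [le_div_iff₀ hpos]; linarith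
    apply hcore _ _ _ hY1 _ ha hb _ q2
    · rw [Real.div_rpow (by linarith) hpos.le, div_mul_eq_mul_div, div_le_iff₀ (by positivity)]
      have : a * b ≤ (a ^ 2 * b ^ 3) ^ (2 / 3 : ℝ) := by
        calc a * b = ((a * b) ^ 3) ^ (1 / 3 : ℝ) := (rpow_third_pow (by positivity)).symm
          _ ≤ ((a ^ 2 * b ^ 3) ^ 2) ^ (1 / 3 : ℝ) := by
              gcongr
              calc (a * b) ^ 3 = a ^ 3 * b ^ 3 := by ring
                _ ≤ a ^ 4 * b ^ 6 := by gcongr <;> first | assumption | norm_num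
                _ = _ := by ring
          _ = (a ^ 2 * b ^ 3) ^ (2 / 3 : ℝ) := by
              rw [← Real.rpow_natCast, ← Real.rpow_mul hpos.le]; norm_num
      gcongr
    · rw [div_le_iff₀ hpos]; nlinarith
    · rw [div_mul_eq_mul_div, div_le_iff₀ hpos]
      gcongr)
  have hBb := sum_QB_le hχ (H := H) B hB0 (fun Y hY => h1 K Y hK hY) c W' hW0 (by
    intro a b ha hb h
    have hpos : 0 < a * b ^ 3 := by positivity
    have hab1 : 1 ≤ a * b := by nlinarith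
    have q2 : a * b ≤ H ^ (1 / 3 : ℝ) := by
      rw [← rpow_third_pow (show 0 ≤ a * b by positivity)]
      gcongr
    have hle : a * b ^ 3 ≤ (a * b) ^ 3 := by
      rw [mul_pow]; gcongr; nlinarith [sq_nonneg a, one_le_pow₀ ha (n := 2)]
    have hge : a * b ≤ a * b ^ 3 := by
      gcongr; nlinarith [sq_nonneg b, one_le_pow₀ hb (n := 2)]
    have hge1 : 1 ≤ a * b ^ 3 := hab1.trans hge
    have hY1 : 1 ≤ H / (a * b ^ 3) := by rw [le_div_iff₀ hpos]; linarith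
    have hs1 : 1 ≤ Real.sqrt (H / (a * b ^ 3)) := by rwa [Real.one_le_sqrt]
    have hs2 : Real.sqrt (H / (a * b ^ 3)) ≤ H / (a * b ^ 3) := by
      have := Real.mul_self_sqrt (show 0 ≤ H / (a * b ^ 3) by positivity)
      nlinarith
    have hs4 : H / (a * b ^ 3) ≤ H := by rw [div_le_iff₀ hpos]; nlinarith
    have hs3 : Real.sqrt (H / (a * b ^ 3)) ≤ H ^ (1 / 2 : ℝ) := by
      rw [← Real.sqrt_eq_rpow]
      exact Real.sqrt_le_sqrt hs4
    apply hcore _ _ _ hs1 (hs2.trans hs4) ha hb _ q2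
    · calc Real.sqrt (H / (a * b ^ 3)) ^ (2 / 3 : ℝ) * (a * b)
          ≤ (H ^ (1 / 2 : ℝ)) ^ (2 / 3 : ℝ) * H ^ (1 / 3 : ℝ) := by gcongr
        _ = H ^ (2 / 3 : ℝ) := by
            rw [← Real.rpow_mul (by linarith), ← Real.rpow_add (by linarith)]; norm_num
    · calc Real.sqrt (H / (a * b ^ 3)) * (a * b) ≤ (H / (a * b ^ 3)) * (a * b ^ 3) := by gcongr
        _ = H := by field_simp)
  have hsum := sum_Hn_le H (fun h => ‖∑ k ∈ SF K, c k * χ k h‖ ^ 2) (fun h => by positivity)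
  have hS0 : 0 ≤ ∑ k ∈ SF K, ‖c k‖ ^ 2 := by positivity
  have hI0 : 0 ≤ ∑ h ∈ Hn H, (N h : ℝ)⁻¹ := by positivity
  have hI : (∑ h ∈ Hn H, (N h : ℝ)⁻¹) ≤ C2 * H ^ (ε / 3) := h2 H (by linarith)
  have hKH : H ^ (ε / 3) ≤ (K * H) ^ (ε / 3) := by
    gcongr; nlinarith
  calc ∑ h ∈ Hn H, ‖∑ k ∈ SF K, c k * χ k h‖ ^ 2
      ≤ 2 * ((Hn 9).card * (W' * ((∑ h ∈ Hn H, (N h : ℝ)⁻¹) * ∑ h ∈ Hn H, (N h : ℝ)⁻¹)) *
        ∑ k ∈ SF K, ‖c k‖ ^ 2) := by linarith
    _ ≤ 2 * (((Hn 9).card + 1) * (W' * ((C2 * (K * H) ^ (ε / 3)) * (C2 * (K * H) ^ (ε / 3)))) *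
        ∑ k ∈ SF K, ‖c k‖ ^ 2) := by
        have : (∑ h ∈ Hn H, (N h : ℝ)⁻¹) ≤ C2 * (K * H) ^ (ε / 3) :=
          hI.trans (by gcongr)
        gcongr
        linarith
    _ = 2 * ((Hn 9).card + 1) * C1 * (C2 * C2) * (K * H) ^ ε * V' *
        ∑ k ∈ SF K, ‖c k‖ ^ 2 := by
        have e : (K * H) ^ ε = (K * H) ^ (ε / 3) * (K * H) ^ (ε / 3) * (K * H) ^ (ε / 3) := by
          rw [← Real.rpow_add (by positivity), ← Real.rpow_add (by positivity)]
          congr 1; ring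
        rw [hW', e]; ring

end Vale.Agent.P006.HB
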