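import Vale.Agent.P006.H357.Full

/-!
P006, block HB: the recursion step (LS3) from the Poisson inequality (P*).
-/

namespace Vale.Agent.P006.HB

open Vale.Agent.P006 Finset

variable {χ : O → O → ℂ}

/-- The Poisson inequality (P*). -/
def PStar (χ : O → O → ℂ) : Prop :=
  ∀ ε : ℝ, 0 < ε → ∀ A : ℕ, ∃ C : ℝ, 0 < C ∧ ∀ K M : ℝ, 1 ≤ K → 1 ≤ M → ∀ c : O → ℂ,
    (∀ k, c k ≠ 0 → k ∈ SF K ∧ K / 2 < (N k : ℝ)) → ∀ Φ : O → ℝ → ℝ,
    (∀ e ∈ SF K, ∀ H : ℝ, 1 ≤ H → ∀ x : O → ℂ, (∀ k, x k ≠ 0 → Prim k ∧ Squarefree k) →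
      (∀ k, ‖x k‖ ≤ ‖c (e * k)‖) →
      ∑ h ∈ Hn H, ‖∑ k ∈ SF K, x k * χ k h‖ ^ 2 ≤ Φ e H) → ∀ G : O → ℝ,
    (∀ e ∈ SF K, ∀ d ∈ D e, ∀ f ∈ D d, ∀ H : ℝ, 1 ≤ H →
      (M * N d / (K * N f)) * min 1 (((N f : ℝ) * K ^ 2 / ((N d : ℝ) ^ 2 * M * H)) ^ A) * Φ e H
        ≤ G e) →
    ∑ n ∈ SF M, ‖∑ k ∈ SF K, c k * χ k n‖ ^ 2 ≤
      C * (K * M) ^ ε * (M * ∑ k ∈ SF K, ‖c k‖ ^ 2 + ∑ e ∈ SF K, G e)

/-- the bound of one step before simplification -/
noncomputable def W (j : ℕ) (K M : ℝ) : ℝ :=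
  M + K + (K * M) ^ (2 / 3 : ℝ) + K * M ^ (1 / 3 : ℝ) + K ^ 2 * (K / M) ^ j

theorem W_nonneg {j : ℕ} {K M : ℝ} (hK : 0 ≤ K) (hM : 0 ≤ M) : 0 ≤ W j K M := by
  unfold W; positivity

theorem W_mono {j : ℕ} {K K' M : ℝ} (hK : 0 ≤ K) (hM : 0 ≤ M) (h : K ≤ K') :
    W j K M ≤ W j K' M := by
  unfold W; gcongr

theorem V_mono {j : ℕ} {K H H' : ℝ} (hK : 0 < K) (hH : 0 ≤ H) (h : H ≤ H') :
    V j K H ≤ V j K H' := by
  have h0 : 0 ≤ H' * K := mul_nonneg (hH.trans h) hK.le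
  unfold V; gcongr

/-- polynomial growth of `V` -/
theorem V_growth {j : ℕ} {K H l : ℝ} (hK : 0 < K) (hH : 0 ≤ H) (hl : 1 ≤ l) :
    V j K (l * H) ≤ l ^ (j + 1) * V j K H := by
  have h1 : l ≤ l ^ (j + 1) := by
    calc l = l ^ 1 := (pow_one l).symm
      _ ≤ l ^ (j + 1) := pow_le_pow_right₀ hl (by omega)
  have hl0 : 0 ≤ l := by linarith
  have h3 : l ^ (1 / 3 : ℝ) ≤ l ^ (j + 1) := by
    refine le_trans ?_ h1
    calc l ^ (1 / 3 : ℝ) ≤ l ^ (1 : ℝ) := Real.rpow_le_rpow_of_exponent_le hl (by norm_num)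
      _ = l := Real.rpow_one l
  have h4 : l ^ (2 / 3 : ℝ) ≤ l ^ (j + 1) := by
    refine le_trans ?_ h1
    calc l ^ (2 / 3 : ℝ) ≤ l ^ (1 : ℝ) := Real.rpow_le_rpow_of_exponent_le hl (by norm_num)
      _ = l := Real.rpow_one l
  unfold V
  have t1 : l * H ≤ l ^ (j + 1) * H := by gcongr
  have t2 : K * (l * H) ^ (1 / 3 : ℝ) ≤ l ^ (j + 1) * (K * H ^ (1 / 3 : ℝ)) := by
    rw [Real.mul_rpow hl0 hH]
    calc K * (l ^ (1 / 3 : ℝ) * H ^ (1 / 3 : ℝ)) = l ^ (1 / 3 : ℝ) * (K * H ^ (1 / 3 : ℝ)) := by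
          ring
      _ ≤ _ := by gcongr
  have t3 : (K * (l * H)) ^ (2 / 3 : ℝ) ≤ l ^ (j + 1) * (K * H) ^ (2 / 3 : ℝ) := by
    have : K * (l * H) = l * (K * H) := by ring
    rw [this, Real.mul_rpow hl0 (by positivity)]
    gcongr
  have t4 : l * H * K * (l * H / K) ^ j = l ^ (j + 1) * (H * K * (H / K) ^ j) := by
    rw [mul_div_assoc, mul_pow, pow_succ]; ring
  rw [t4]
  linarith

/-- Claim 1: the maximum over `H` -/
theorem claim1 {j A : ℕ} (hA : j + 2 ≤ A) {ε K' A' H : ℝ} (hε : 0 < ε) (hε1 : ε ≤ 1)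
    (hK : 1 ≤ K') (hA' : 0 < A') (hH : 1 ≤ H) :
    min 1 ((K' ^ 2 / (A' * H)) ^ A) * ((K' * H) ^ ε * V j K' H) ≤
      (K' * max 1 (K' ^ 2 / A')) ^ ε * V j K' (max 1 (K' ^ 2 / A')) := by
  set H1 := max 1 (K' ^ 2 / A') with hH1
  have hH1' : 1 ≤ H1 := le_max_left _ _
  have hV0 : 0 ≤ V j K' H := V_nonneg (by linarith) (by linarith)
  have hV1 : 0 ≤ V j K' H1 := V_nonneg (by linarith) (by linarith)
  rcases le_total H H1 with h | h
  · calc min 1 ((K' ^ 2 / (A' * H)) ^ A) * ((K' * H) ^ ε * V j K' H)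
        ≤ 1 * ((K' * H1) ^ ε * V j K' H1) := by
          have := V_mono (j := j) (K := K') (by linarith) (by linarith) h
          gcongr
          exact min_le_left _ _
      _ = _ := one_mul _
  · set l := H / H1 with hl
    have hl1 : 1 ≤ l := by rw [hl, le_div_iff₀ (by linarith)]; linarith
    have hHl : H = l * H1 := by rw [hl]; field_simp
    have g1 : V j K' H ≤ l ^ (j + 1) * V j K' H1 := by
      rw [hHl]; exact V_growth (by linarith) (by linarith) hl1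
    have g2 : (K' * H) ^ ε ≤ l * (K' * H1) ^ ε := by
      have : K' * H = l * (K' * H1) := by rw [hHl]; ring
      rw [this, Real.mul_rpow (by linarith) (by positivity)]
      gcongr
      calc l ^ ε ≤ l ^ (1 : ℝ) := Real.rpow_le_rpow_of_exponent_le hl1 hε1
        _ = l := Real.rpow_one l
    have g3 : (K' ^ 2 / (A' * H)) ^ A ≤ (l⁻¹) ^ A := by
      gcongr
      rw [div_le_iff₀ (by positivity), hHl]
      have : K' ^ 2 / A' ≤ H1 := le_max_right _ _
      rw [div_le_iff₀ hA'] at this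
      calc K' ^ 2 ≤ H1 * A' := this
        _ = l⁻¹ * (A' * (l * H1)) := by field_simp
    calc min 1 ((K' ^ 2 / (A' * H)) ^ A) * ((K' * H) ^ ε * V j K' H)
        ≤ (l⁻¹) ^ A * ((l * (K' * H1) ^ ε) * (l ^ (j + 1) * V j K' H1)) := by
          gcongr
          exact (min_le_right _ _).trans g3
      _ = ((l⁻¹) ^ A * l ^ (j + 2)) * ((K' * H1) ^ ε * V j K' H1) := by ring
      _ ≤ 1 * ((K' * H1) ^ ε * V j K' H1) := by
          gcongr
          rw [inv_pow]
          rw [inv_mul_le_iff₀ (by positivity), mul_one]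
          exact pow_le_pow_right₀ hl1 hA
      _ = _ := one_mul _

/-- Claim 2 -/
theorem claim2 {j : ℕ} {K' A' K M : ℝ} (hK' : 1 ≤ K') (hA' : 0 < A') (hKK : K' ≤ K)
    (hAM : A' ≤ M) (hr : K' / A' ≤ K / M) :
    (A' / K') * V j K' (max 1 (K' ^ 2 / A')) ≤ 4 * W j K M := by
  have hK : 1 ≤ K := hK'.trans hKK
  have hM : 0 < M := hA'.trans_le hAM
  have hK0 : 0 < K' := by linarith
  have hW1 : M ≤ W j K M := by
    unfold W
    have a1 : 0 ≤ (K * M) ^ (2 / 3 : ℝ) := by positivity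
    have a2 : 0 ≤ K * M ^ (1 / 3 : ℝ) := by positivity
    have a3 : 0 ≤ K ^ 2 * (K / M) ^ j := by positivity
    linarith
  rcases le_total (K' ^ 2 / A') 1 with h | h
  · rw [max_eq_left h]
    have hV : V j K' 1 ≤ 4 * K' := by
      unfold V
      rw [Real.one_rpow, mul_one, one_mul]
      have b1 : K' ^ (2 / 3 : ℝ) ≤ K' := by
        calc K' ^ (2 / 3 : ℝ) ≤ K' ^ (1 : ℝ) :=
              Real.rpow_le_rpow_of_exponent_le hK' (by norm_num)
          _ = K' := Real.rpow_one _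
      have b2 : (1 / K') ^ j ≤ 1 := pow_le_one₀ (by positivity) (by
        rw [div_le_one hK0]; exact hK')
      nlinarith
    calc (A' / K') * V j K' 1 ≤ (A' / K') * (4 * K') := by gcongr
      _ = 4 * A' := by field_simp
      _ ≤ 4 * W j K M := by linarith
  · rw [max_eq_right h]
    set H0 := K' ^ 2 / A' with hH0
    have hH0p : 0 < H0 := by positivity
    have e1 : (A' / K') * H0 = K' := by rw [hH0]; field_simp
    have e2 : (A' / K') * (K' * H0 ^ (1 / 3 : ℝ)) = (K' * A') ^ (2 / 3 : ℝ) := by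
      have : (A' / K') * (K' * H0 ^ (1 / 3 : ℝ)) = A' * H0 ^ (1 / 3 : ℝ) := by field_simp
      rw [this, hH0, Real.div_rpow (by positivity) hA'.le, Real.mul_rpow hK0.le hA'.le,
        ← Real.rpow_natCast, ← Real.rpow_mul hK0.le, mul_div_assoc', div_eq_iff (by positivity),
        mul_assoc, ← Real.rpow_add hA']
      norm_num
      ring
    have e3 : (A' / K') * (K' * H0) ^ (2 / 3 : ℝ) = K' * A' ^ (1 / 3 : ℝ) := by
      have h1 : K' * H0 = K' ^ 3 / A' := by rw [hH0]; ring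
      rw [h1, Real.div_rpow (by positivity) hA'.le, ← Real.rpow_natCast, ← Real.rpow_mul hK0.le,
        div_mul_div_comm, div_eq_iff (by positivity)]
      have h2 : A' = A' ^ (1 / 3 : ℝ) * A' ^ (2 / 3 : ℝ) := by
        rw [← Real.rpow_add hA']; norm_num
      norm_num
      calc A' * K' ^ 2 = (A' ^ (1 / 3 : ℝ) * A' ^ (2 / 3 : ℝ)) * K' ^ 2 := by rw [← h2]
        _ = _ := by ring
    have e4 : (A' / K') * (H0 * K' * (H0 / K') ^ j) = K' ^ 2 * (K' / A') ^ j := by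
      have h1 : H0 / K' = K' / A' := by rw [hH0]; field_simp
      rw [h1, hH0]; field_simp
    have hV : (A' / K') * V j K' H0 =
        K' + (K' * A') ^ (2 / 3 : ℝ) + K' * A' ^ (1 / 3 : ℝ) + K' ^ 2 * (K' / A') ^ j := by
      unfold V
      rw [mul_add, mul_add, mul_add, e1, e2, e3, e4]
    rw [hV]
    have hle : K' + (K' * A') ^ (2 / 3 : ℝ) + K' * A' ^ (1 / 3 : ℝ) + K' ^ 2 * (K' / A') ^ j
        ≤ K + (K * M) ^ (2 / 3 : ℝ) + K * M ^ (1 / 3 : ℝ) + K ^ 2 * (K / M) ^ j := by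
      gcongr
    have hW2 : K + (K * M) ^ (2 / 3 : ℝ) + K * M ^ (1 / 3 : ℝ) + K ^ 2 * (K / M) ^ j
        ≤ W j K M := by
      unfold W; linarith
    have hW0 : 0 ≤ W j K M := W_nonneg (by linarith) hM.le
    linarith

/-- Claim 3: the epsilon power -/
theorem claim3 {K' A' K M ε : ℝ} (hε : 0 < ε) (hK' : 1 ≤ K') (hA' : 0 < A') (hKK : K' ≤ K)
    (hM : 1 ≤ M) (hr : K' / A' ≤ K / M) :
    (K' * max 1 (K' ^ 2 / A')) ^ ε ≤ (K * M) ^ (3 * ε) := by
  have hK : 1 ≤ K := hK'.trans hKK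
  have h1 : K' * max 1 (K' ^ 2 / A') ≤ K ^ 3 := by
    rcases le_total (K' ^ 2 / A') 1 with h | h
    · rw [max_eq_left h, mul_one]
      calc K' ≤ K := hKK
        _ = K ^ 1 := (pow_one K).symm
        _ ≤ K ^ 3 := pow_le_pow_right₀ hK (by norm_num)
    · rw [max_eq_right h]
      calc K' * (K' ^ 2 / A') = K' ^ 2 * (K' / A') := by ring
        _ ≤ K ^ 2 * (K / M) := by gcongr
        _ ≤ K ^ 2 * K := by
            gcongr
            exact div_le_self (by linarith) hM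
        _ = K ^ 3 := by ring
  have h2 : K ^ 3 ≤ (K * M) ^ 3 := by
    gcongr
    nlinarith
  calc (K' * max 1 (K' ^ 2 / A')) ^ ε ≤ ((K * M) ^ 3) ^ ε := by
        gcongr
        exact h1.trans h2
    _ = (K * M) ^ (3 * ε) := by
        rw [← Real.rpow_natCast, ← Real.rpow_mul (by positivity)]; norm_num

/-- the sum over multiples: `∑_e ∑_k ‖c(ek)‖² ≤ max τ · ‖c‖²` -/
theorem sum_mult_le {K T : ℝ} (c : O → ℂ) (hc : ∀ k, c k ≠ 0 → k ∈ SF K)
    (hT : ∀ k ∈ SF K, ((D k).card : ℝ) ≤ T) :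
    ∑ e ∈ SF K, ∑ k ∈ SF K, ‖c (e * k)‖ ^ 2 ≤ T * ∑ k ∈ SF K, ‖c k‖ ^ 2 := by
  classical
  rw [← sum_product']
  have h1 : ∑ x ∈ SF K ×ˢ SF K, ‖c (x.1 * x.2)‖ ^ 2 =
      ∑ x ∈ (SF K ×ˢ SF K).filter (fun x => x.1 * x.2 ∈ SF K), ‖c (x.1 * x.2)‖ ^ 2 := by
    rw [sum_filter]
    refine sum_congr rfl fun x _ => ?_
    split_ifs with h
    · rfl
    · by_contra hne
      exact h (hc _ (fun h0 => hne (by rw [h0]; simp)))
  have h5 : ∀ x ∈ (SF K ×ˢ SF K).filter (fun x => x.1 * x.2 ∈ SF K), x.1 * x.2 ∈ SF K :=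
    fun x hx => (mem_filter.1 hx).2
  rw [h1, ← sum_fiberwise_of_maps_to h5 (fun x => ‖c (x.1 * x.2)‖ ^ 2), mul_sum]
  refine sum_le_sum fun m hm => ?_
  have h2 : ∑ x ∈ ((SF K ×ˢ SF K).filter (fun x => x.1 * x.2 ∈ SF K)).filter
      (fun x => x.1 * x.2 = m), ‖c (x.1 * x.2)‖ ^ 2 =
      ∑ x ∈ ((SF K ×ˢ SF K).filter (fun x => x.1 * x.2 ∈ SF K)).filter
      (fun x => x.1 * x.2 = m), ‖c m‖ ^ 2 := by
    refine sum_congr rfl fun x hx => ?_
    rw [(mem_filter.1 hx).2]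
  rw [h2, sum_const, nsmul_eq_mul]
  gcongr
  refine le_trans ?_ (hT m hm)
  have hm' := hm
  rw [mem_SF] at hm'
  have h3 : (((SF K ×ˢ SF K).filter (fun x => x.1 * x.2 ∈ SF K)).filter
      (fun x => x.1 * x.2 = m)).card ≤ (D m).card := by
    apply card_le_card_of_injOn (fun x => x.1)
    · intro x hx
      have hx' := hx
      simp only [coe_filter, mem_filter, mem_product, Set.mem_setOf_eq] at hx'
      simp only [mem_coe]
      rw [mem_D hm'.2.1.ne_zero]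
      exact ⟨(mem_SF.1 hx'.1.1.1).2.1, Dvd.intro _ hx'.2⟩
    · intro x hx y hy hxy
      simp only [coe_filter, mem_filter, mem_product, Set.mem_setOf_eq] at hx hy
      simp only at hxy
      have hx1 : x.1 ≠ 0 := (mem_SF.1 hx.1.1.1).2.1.ne_zero
      have h4 : x.1 * x.2 = x.1 * y.2 := by rw [hx.2, hxy, hy.2]
      exact Prod.ext hxy (mul_left_cancel₀ hx1 h4)
  exact_mod_cast h3

theorem N_le_of_mem_D {k d : O} (hk : k ≠ 0) (h : d ∈ D k) : N d ≤ N k := by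
  rw [mem_D hk] at h
  exact Nat.le_of_dvd (Vale.Agent.P006.N_pos hk) (N_dvd_N h.2)

/-- dyadic step -/
theorem dyadic_step (hP : PStar χ) (j : ℕ)
    (hF : ∀ ε : ℝ, 0 < ε → ∃ C : ℝ, 0 < C ∧ ∀ K H : ℝ, 1 ≤ K → 1 ≤ H →
      LSF χ K H (C * (K * H) ^ ε * V j K H)) :
    ∀ ε : ℝ, 0 < ε → ∃ C : ℝ, 0 < C ∧ ∀ K M : ℝ, 1 ≤ K → 1 ≤ M → ∀ c : O → ℂ,
      (∀ k, c k ≠ 0 → k ∈ SF K ∧ K / 2 < (N k : ℝ)) →
      ∑ n ∈ SF M, ‖∑ k ∈ SF K, c k * χ k n‖ ^ 2 ≤
        C * (K * M) ^ ε * W j K M * ∑ k ∈ SF K, ‖c k‖ ^ 2 := by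
  classical
  intro ε hε
  set ε' := min (ε / 5) 1 with hε'
  have hε'0 : 0 < ε' := lt_min (by linarith) one_pos
  have hε'1 : ε' ≤ 1 := min_le_right _ _
  have hε'5 : 5 * ε' ≤ ε := by
    have : ε' ≤ ε / 5 := min_le_left _ _
    linarith
  obtain ⟨C1, hC1, h1⟩ := hF ε' hε'0
  obtain ⟨C2, hC2, h2⟩ := hP ε' hε'0 (j + 2)
  obtain ⟨C3, hC3, h3⟩ := card_D_le hε'0
  refine ⟨C2 * (1 + 4 * C1 * C3), by positivity, fun K M hK hM c hc => ?_⟩
  set S := ∑ k ∈ SF K, ‖c k‖ ^ 2 with hS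
  have hS0 : 0 ≤ S := by positivity
  have hW0 : 0 ≤ W j K M := W_nonneg (by linarith) (by linarith)
  have hKM : 1 ≤ K * M := one_le_mul_of_one_le_of_one_le hK hM
  -- the functions Φ and G
  set Se : O → ℝ := fun e => ∑ k ∈ SF K, ‖c (e * k)‖ ^ 2 with hSe
  have hSe0 : ∀ e, 0 ≤ Se e := fun e => by rw [hSe]; positivity
  have hDne : ∀ e : O, Prim e → (D e).Nonempty := fun e he =>
    ⟨1, (mem_D he.ne_zero).2 ⟨prim_one, one_dvd _⟩⟩
  set F : O → ℝ → ℝ := fun d H => C1 * ((K / N d) * H) ^ ε' * V j (K / N d) H with hFd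
  set Φ : O → ℝ → ℝ := fun e H =>
    if he : (D e).Nonempty then (D e).inf' he (fun d => F d H) * Se e else 0 with hΦ
  set G : O → ℝ := fun e => 4 * C1 * (K * M) ^ (3 * ε') * W j K M * Se e with hG
  have hmain := h2 K M hK hM c hc Φ ?_ G ?_
  · refine hmain.trans ?_
    have hsumG : ∑ e ∈ SF K, G e ≤ 4 * C1 * (K * M) ^ (3 * ε') * W j K M *
        ((C3 * K ^ ε') * S) := by
      rw [hG]
      simp only
      rw [← mul_sum]
      gcongr
      apply sum_mult_le c (fun k hk => (hc k hk).1)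
      intro k hk
      rw [mem_SF] at hk
      refine (h3 k hk.2.1 hk.2.2).trans ?_
      gcongr
      exact hk.1
    have hMW : M ≤ W j K M := by
      unfold W
      have a1 : 0 ≤ (K * M) ^ (2 / 3 : ℝ) := by positivity
      have a2 : 0 ≤ K * M ^ (1 / 3 : ℝ) := by positivity
      have a3 : 0 ≤ K ^ 2 * (K / M) ^ j := by positivity
      linarith
    have hKe : K ^ ε' ≤ (K * M) ^ ε' := by
      gcongr; nlinarith
    have e1 : (1 : ℝ) ≤ (K * M) ^ (4 * ε') := Real.one_le_rpow hKM (by positivity)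
    calc C2 * (K * M) ^ ε' * (M * S + ∑ e ∈ SF K, G e)
        ≤ C2 * (K * M) ^ ε' * ((K * M) ^ (4 * ε') * W j K M * S +
            4 * C1 * (K * M) ^ (3 * ε') * W j K M * ((C3 * (K * M) ^ ε') * S)) := by
          gcongr
          · nlinarith
          · refine hsumG.trans ?_
            gcongr
      _ = C2 * (1 + 4 * C1 * C3) * ((K * M) ^ ε' * (K * M) ^ (4 * ε')) * W j K M * S := by
          have e2 : (K * M) ^ (4 * ε') = (K * M) ^ (3 * ε') * (K * M) ^ ε' := by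
            rw [← Real.rpow_add (by positivity)]; congr 1; ring
          rw [e2]; ring
      _ ≤ C2 * (1 + 4 * C1 * C3) * (K * M) ^ ε * W j K M * S := by
          have e3 : (K * M) ^ ε' * (K * M) ^ (4 * ε') ≤ (K * M) ^ ε := by
            rw [← Real.rpow_add (by positivity)]
            apply Real.rpow_le_rpow_of_exponent_le hKM
            linarith
          gcongr
  · -- the bound for T(H; x)
    intro e he H hH x hx hxc
    rw [mem_SF] at he
    have hne := hDne e he.2.1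
    rw [hΦ]
    simp only [dif_pos hne]
    have hxS : ∑ k ∈ SF K, ‖x k‖ ^ 2 ≤ Se e := by
      rw [hSe]
      simp only
      gcongr with k hk
      exact hxc k
    -- for every divisor
    obtain ⟨d, hd, hdeq⟩ := exists_mem_eq_inf' hne (fun d => F d H)
    rw [hdeq]
    have hd' := (mem_D he.2.1.ne_zero).1 hd
    have hdpos : (0 : ℝ) < N d := by exact_mod_cast hd'.1.N_pos
    have hde : (N d : ℝ) ≤ N e := by exact_mod_cast N_le_of_mem_D he.2.1.ne_zero hd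
    have hKd : 1 ≤ K / N d := by
      rw [le_div_iff₀ hdpos, one_mul]; exact hde.trans he.1
    have hd1 : (1 : ℝ) ≤ N d := by exact_mod_cast hd'.1.N_pos
    have hKdK : K / N d ≤ K := div_le_self (by linarith) hd1
    have hF0 : 0 ≤ F d H := by
      rw [hFd]
      have := V_nonneg (j := j) (K := K / N d) (H := H) (by linarith) (by linarith)
      positivity
    have hL := h1 (K / N d) H hKd hH x
    -- x is supported on SF (K / N d)
    have hsupp : ∀ k ∈ SF K, k ∉ SF (K / N d) → x k = 0 := by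
      intro k hk hk'
      by_contra hne'
      apply hk'
      rw [mem_SF] at hk ⊢
      refine ⟨?_, hk.2⟩
      have h5 : c (e * k) ≠ 0 := by
        intro h0
        have := hxc k
        rw [h0, norm_zero] at this
        exact hne' (norm_le_zero_iff.1 this)
      have h6 := (hc _ h5).1
      rw [mem_SF, N_mul] at h6
      push_cast at h6
      rw [le_div_iff₀ hdpos]
      have hkpos : (0 : ℝ) ≤ N k := by positivity
      nlinarith [h6.1]
    have e1 : ∀ h ∈ Hn H, ‖∑ k ∈ SF K, x k * χ k h‖ ^ 2 =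
        ‖∑ k ∈ SF (K / N d), x k * χ k h‖ ^ 2 := by
      intro h _
      congr 2
      symm
      apply sum_subset (SF_mono hKdK)
      intro k hk hk'
      rw [hsupp k hk hk', zero_mul]
    rw [sum_congr rfl e1]
    refine hL.trans ?_
    have e2 : ∑ k ∈ SF (K / N d), ‖x k‖ ^ 2 ≤ ∑ k ∈ SF K, ‖x k‖ ^ 2 :=
      sum_le_sum_of_subset_of_nonneg (SF_mono hKdK) fun _ _ _ => by positivity
    calc C1 * (K / N d * H) ^ ε' * V j (K / N d) H * ∑ k ∈ SF (K / N d), ‖x k‖ ^ 2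
        = F d H * ∑ k ∈ SF (K / N d), ‖x k‖ ^ 2 := by rw [hFd]
      _ ≤ F d H * Se e := by
          gcongr
          exact e2.trans hxS
  · -- the comparison with G
    intro e he d hd f hf H hH
    rw [mem_SF] at he
    have hne := hDne e he.2.1
    have hd' := (mem_D he.2.1.ne_zero).1 hd
    have hf' := (mem_D hd'.1.ne_zero).1 hf
    have hd1 : (1 : ℝ) ≤ N d := by exact_mod_cast hd'.1.N_pos
    have hf1 : (1 : ℝ) ≤ N f := by exact_mod_cast hf'.1.N_pos
    have hde : (N d : ℝ) ≤ N e := by exact_mod_cast N_le_of_mem_D he.2.1.ne_zero hd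
    have hfd : (N f : ℝ) ≤ N d := by exact_mod_cast N_le_of_mem_D hd'.1.ne_zero hf
    set K' := K / N d with hK'
    set A' := M / N f with hA'
    have hK'1 : 1 ≤ K' := by
      rw [hK', le_div_iff₀ (by linarith), one_mul]; exact hde.trans he.1
    have hK'K : K' ≤ K := div_le_self (by linarith) hd1
    have hA'0 : 0 < A' := by positivity
    have hA'M : A' ≤ M := div_le_self (by linarith) hf1
    have hr : K' / A' ≤ K / M := by
      rw [hK', hA', div_div_div_eq, div_le_div_iff₀ (by positivity) (by linarith)]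
      have hK0 : 0 ≤ K := by linarith
      have hM0 : 0 ≤ M := by linarith
      have := mul_le_mul_of_nonneg_left hfd (mul_nonneg hK0 hM0)
      nlinarith
    have hfac : M * N d / (K * N f) = A' / K' := by
      rw [hK', hA']; field_simp
    have hfac2 : (N f : ℝ) * K ^ 2 / ((N d : ℝ) ^ 2 * M * H) = K' ^ 2 / (A' * H) := by
      rw [hK', hA']; field_simp
    have hΦle : Φ e H ≤ F d H * Se e := by
      rw [hΦ]
      simp only [dif_pos hne]
      have : (D e).inf' hne (fun d => F d H) ≤ F d H := inf'_le (fun d => F d H) hd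
      have h0 := hSe0 e
      gcongr
    have hmin0 : 0 ≤ min 1 ((K' ^ 2 / (A' * H)) ^ (j + 2)) := by
      apply le_min zero_le_one; positivity
    rw [hfac, hfac2]
    have c1 := claim1 (j := j) (A := j + 2) le_rfl hε'0 hε'1 hK'1 hA'0 hH
    have c2 := claim2 (j := j) hK'1 hA'0 hK'K hA'M hr
    have c3 := claim3 hε'0 hK'1 hA'0 hK'K hM hr
    have hVm : 0 ≤ V j K' (max 1 (K' ^ 2 / A')) := V_nonneg (by linarith) (by positivity)
    have h0 := hSe0 e
    calc A' / K' * min 1 ((K' ^ 2 / (A' * H)) ^ (j + 2)) * Φ e H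
        ≤ A' / K' * min 1 ((K' ^ 2 / (A' * H)) ^ (j + 2)) * (F d H * Se e) := by
          gcongr
      _ = C1 * (A' / K') * (min 1 ((K' ^ 2 / (A' * H)) ^ (j + 2)) *
            ((K' * H) ^ ε' * V j K' H)) * Se e := by
          rw [hFd]; ring
      _ ≤ C1 * (A' / K') * ((K' * max 1 (K' ^ 2 / A')) ^ ε' *
            V j K' (max 1 (K' ^ 2 / A'))) * Se e := by
          gcongr
      _ = C1 * (K' * max 1 (K' ^ 2 / A')) ^ ε' * ((A' / K') *
            V j K' (max 1 (K' ^ 2 / A'))) * Se e := by ring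
      _ ≤ C1 * (K * M) ^ (3 * ε') * (4 * W j K M) * Se e := by
          gcongr
      _ = G e := by rw [hG]; ring

end Vale.Agent.P006.HB
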