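import Vale.Agent.P006.H357.Dual
import Vale.Agent.P006.PS.PStar

/-!
P006, block HB: the dual form of the cubic large sieve for the cubic symbol, unconditionally
(`cubic_large_sieve_symC` and `cubic_large_sieve_full_symC` are in `PS/PStar.lean`).
-/

namespace Vale.Agent.P006.HB

open scoped BigOperators

/-- (LS4) dual form, unconditional -/
theorem large_sieve_dual_symC :
    ∀ ε : ℝ, 0 < ε → ∃ C : ℝ, 0 < C ∧ ∀ K M : ℝ, 1 ≤ K → 1 ≤ M → ∀ a : O → ℂ,
      (∀ h, ‖a h‖ ≤ 1) → ∑ k ∈ SF K, ‖∑ h ∈ Hn M, a h * symC k h‖ ^ 2 ≤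
        C * (K * M) ^ ε * (M * (K + M + (K * M) ^ (2 / 3 : ℝ))) :=
  large_sieve_dual csym_symC PS.pstar_symC

end Vale.Agent.P006.HB
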